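import Mathlib
import Vale.Agent.P100.UnitBound
import Vale.Agent.P100.SuperW
import Vale.Agent.P100.Souplet.Local

/-!
# The system with two weights: solutions, energy, scaling

`-Δu = ‖x‖ ^ A v ^ p`, `-Δv = ‖x‖ ^ B u ^ q` off the origin, for real `A, B > -2` of either sign.
-/

open MeasureTheory Filter Set Metric Topology

namespace Vale.Agent.P100.SoupletAB

variable {n : ℕ} {A B p q : ℝ}

/-- A positive entire solution with two weights, in the sense of the problem. -/
structure IsSolAB (A B p q : ℝ) (u v : EuclideanSpace ℝ (Fin n) → ℝ) : Prop where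
  contU : Continuous u
  contV : Continuous v
  smoothU : ContDiffOn ℝ 2 u {0}ᶜ
  smoothV : ContDiffOn ℝ 2 v {0}ᶜ
  posU : ∀ x, 0 < u x
  posV : ∀ x, 0 < v x
  eqU : ∀ x, x ≠ 0 → Laplacian.laplacian u x = -(‖x‖ ^ A * v x ^ p)
  eqV : ∀ x, x ≠ 0 → Laplacian.laplacian v x = -(‖x‖ ^ B * u x ^ q)

variable {u v : EuclideanSpace ℝ (Fin n) → ℝ}

theorem IsSolAB.swap (h : IsSolAB A B p q u v) : IsSolAB B A q p v u :=
  ⟨h.contV, h.contU, h.smoothV, h.smoothU, h.posV, h.posU, h.eqV, h.eqU⟩

theorem IsSolAB.contDiffAtU (h : IsSolAB A B p q u v) {x : EuclideanSpace ℝ (Fin n)} (hx : x ≠ 0) :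
    ContDiffAt ℝ 2 u x :=
  h.smoothU.contDiffAt (isOpen_compl_singleton.mem_nhds hx)

theorem IsSolAB.energy_nonneg (h : IsSolAB A B p q u v) (x : EuclideanSpace ℝ (Fin n)) :
    0 ≤ energy p q u v x :=
  add_nonneg (Real.rpow_nonneg (h.posU x).le _) (Real.rpow_nonneg (h.posV x).le _)

theorem IsSolAB.continuous_energy (h : IsSolAB A B p q u v) : Continuous (energy p q u v) :=
  (h.contU.rpow_const fun x => Or.inl (h.posU x).ne').add
    (h.contV.rpow_const fun x => Or.inl (h.posV x).ne')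

theorem IsSolAB.continuousOn_fderiv (h : IsSolAB A B p q u v) :
    ContinuousOn (fun x => ‖fderiv ℝ u x‖) {0}ᶜ ∧ ContinuousOn (fun x => ‖fderiv ℝ v x‖) {0}ᶜ :=
  ⟨(h.smoothU.continuousOn_fderiv_of_isOpen isOpen_compl_singleton one_le_two).norm,
   (h.smoothV.continuousOn_fderiv_of_isOpen isOpen_compl_singleton one_le_two).norm⟩

theorem IsSolAB.sphereDens_nonneg (h : IsSolAB A B p q u v) (x : EuclideanSpace ℝ (Fin n)) :
    0 ≤ sphereDens p q u v x := by
  have := h.energy_nonneg x
  have := (h.posU x).le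
  have := (h.posV x).le
  unfold sphereDens; positivity

theorem IsSolAB.measurable_sphereDens (h : IsSolAB A B p q u v) :
    Measurable (sphereDens p q u v) :=
  (((h.continuous_energy.measurable.add
    ((measurable_fderiv ℝ u).norm.mul (measurable_fderiv ℝ v).norm)).add
    (h.contV.measurable.mul (measurable_fderiv ℝ u).norm)).add
    (h.contU.measurable.mul (measurable_fderiv ℝ v).norm))

/-- A weight and its inverse are at most `4 ^ |A|` for `1/4 ≤ r ≤ 4`. -/
theorem rpow_ann_bounds (A : ℝ) {r : ℝ} (h1 : 1 / 4 ≤ r) (h4 : r ≤ 4) :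
    r ^ A ≤ 4 ^ |A| ∧ 1 ≤ 4 ^ |A| * r ^ A := by
  have hr : 0 < r := by linarith
  have key : ∀ C : ℝ, r ^ C ≤ 4 ^ |C| := fun C => by
    rcases le_total 0 C with hC | hC
    · rw [abs_of_nonneg hC]
      exact Real.rpow_le_rpow hr.le h4 hC
    · rw [abs_of_nonpos hC]
      refine (Real.rpow_le_rpow_of_nonpos (by norm_num) h1 hC).trans (le_of_eq ?_)
      rw [one_div, Real.inv_rpow (by norm_num), Real.rpow_neg (by norm_num)]
  refine ⟨key A, ?_⟩
  have h := key (-A)
  rw [abs_neg, Real.rpow_neg hr.le, inv_le_iff_one_le_mul₀ (Real.rpow_pos_of_pos hr A)] at h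
  exact h

/-- `|x| ^ B u ^ (q + 1) + |x| ^ A v ^ (p + 1)`. -/
noncomputable def energyAB (A B p q : ℝ) (u v : EuclideanSpace ℝ (Fin n) → ℝ)
    (x : EuclideanSpace ℝ (Fin n)) : ℝ :=
  ‖x‖ ^ B * u x ^ (q + 1) + ‖x‖ ^ A * v x ^ (p + 1)

theorem IsSolAB.energyAB_nonneg (h : IsSolAB A B p q u v) (x : EuclideanSpace ℝ (Fin n)) :
    0 ≤ energyAB A B p q u v x :=
  add_nonneg (mul_nonneg (Real.rpow_nonneg (norm_nonneg x) _) (Real.rpow_nonneg (h.posU x).le _))
    (mul_nonneg (Real.rpow_nonneg (norm_nonneg x) _) (Real.rpow_nonneg (h.posV x).le _))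

/-- The weights are integrable at the origin, since they exceed `-n`. -/
theorem IsSolAB.integrableOn_energyAB (h : IsSolAB A B p q u v) (hn : 2 ≤ n) (hA : -2 < A)
    (hB : -2 < B) (r : ℝ) :
    IntegrableOn (energyAB A B p q u v) (closedBall (0 : EuclideanSpace ℝ (Fin n)) r) := by
  have h2 : (2 : ℝ) ≤ n := by exact_mod_cast hn
  have one : ∀ {w : ℝ} {f : EuclideanSpace ℝ (Fin n) → ℝ}, -2 < w → Continuous f →
      IntegrableOn (fun y => ‖y‖ ^ w * f y) (closedBall (0 : EuclideanSpace ℝ (Fin n)) r) := by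
    intro w f hw hf
    have hi := Souplet.integrableOn_pot (μ := (volume : Measure (EuclideanSpace ℝ (Fin n))))
      (by rw [finrank_euclideanSpace_fin]; omega)
      (isCompact_closedBall (0 : EuclideanSpace ℝ (Fin n)) r) hf
      (0 : EuclideanSpace ℝ (Fin n)) (m := -w) (by rw [finrank_euclideanSpace_fin]; linarith)
    refine hi.congr_fun (fun y _ => ?_) isClosed_closedBall.measurableSet
    simp
  exact (one hB (h.contU.rpow_const fun x => Or.inl (h.posU x).ne')).add
    (one hA (h.contV.rpow_const fun x => Or.inl (h.posV x).ne'))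

/-- On the annulus the energy is controlled by the weighted one. -/
theorem IsSolAB.energy_le_ann (h : IsSolAB A B p q u v) {x : EuclideanSpace ℝ (Fin n)}
    (h1 : 1 / 4 ≤ ‖x‖) (h4 : ‖x‖ ≤ 4) :
    energy p q u v x ≤ (4 ^ |A| + 4 ^ |B|) * energyAB A B p q u v x := by
  have a := mul_le_mul_of_nonneg_right (rpow_ann_bounds A h1 h4).2
    (Real.rpow_nonneg (h.posV x).le (p + 1))
  have b := mul_le_mul_of_nonneg_right (rpow_ann_bounds B h1 h4).2
    (Real.rpow_nonneg (h.posU x).le (q + 1))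
  have cA : (0 : ℝ) ≤ 4 ^ |A| := by positivity
  have cB : (0 : ℝ) ≤ 4 ^ |B| := by positivity
  have eB := mul_nonneg cA (mul_nonneg (Real.rpow_nonneg (norm_nonneg x) B)
    (Real.rpow_nonneg (h.posU x).le (q + 1)))
  have eA := mul_nonneg cB (mul_nonneg (Real.rpow_nonneg (norm_nonneg x) A)
    (Real.rpow_nonneg (h.posV x).le (p + 1)))
  rw [one_mul, mul_assoc] at a b
  simp only [energy, energyAB]
  linarith

/-- The exponent of the scaling `u ↦ c ^ α u (c x)`. -/
noncomputable def scalExpAB (A B p q : ℝ) : ℝ := ((2 + A) + (2 + B) * p) / (p * q - 1)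

theorem scalExpAB_mul (hpq : 1 < p * q) :
    scalExpAB B A q p * p = scalExpAB A B p q + (2 + A) ∧
      scalExpAB A B p q * (q + 1) - B = scalExpAB B A q p * (p + 1) - A := by
  have : p * q - 1 ≠ 0 := by linarith
  constructor
  · unfold scalExpAB
    rw [mul_comm q p, div_mul_eq_mul_div, div_add' _ _ _ this]
    congr 1
    ring
  · unfold scalExpAB
    rw [mul_comm q p, div_mul_eq_mul_div, div_mul_eq_mul_div, div_sub' this, div_sub' this]
    congr 1
    ring

theorem IsSolAB.scale (h : IsSolAB A B p q u v) (hpq : 1 < p * q) {c : ℝ} (hc : 0 < c) :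
    IsSolAB A B p q (fun x => c ^ scalExpAB A B p q * u (c • x))
      (fun x => c ^ scalExpAB B A q p * v (c • x)) := by
  have key : ∀ {A' B' p' q' : ℝ} {u' v' : EuclideanSpace ℝ (Fin n) → ℝ},
      IsSolAB A' B' p' q' u' v' → 1 < p' * q' → ∀ x : EuclideanSpace ℝ (Fin n), x ≠ 0 →
      Laplacian.laplacian (fun x => c ^ scalExpAB A' B' p' q' * u' (c • x)) x =
        -(‖x‖ ^ A' * (c ^ scalExpAB B' A' q' p' * v' (c • x)) ^ p') := by
    intro A' B' p' q' u' v' h' hpq' x hx
    have hx' : c • x ≠ 0 := smul_ne_zero hc.ne' hx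
    rw [laplacian_const_mul_comp_smul _ hc.ne' (h'.contDiffAtU hx'), h'.eqU _ hx', norm_smul,
      Real.norm_of_nonneg hc.le, Real.mul_rpow hc.le (norm_nonneg x),
      Real.mul_rpow (by positivity) (h'.posV _).le, ← Real.rpow_mul hc.le, (scalExpAB_mul hpq').1,
      Real.rpow_add hc, Real.rpow_add hc, Real.rpow_two]
    ring
  have sm : ∀ {f : EuclideanSpace ℝ (Fin n) → ℝ}, ContDiffOn ℝ 2 f {0}ᶜ → ∀ a : ℝ,
      ContDiffOn ℝ 2 (fun x => a * f (c • x)) {0}ᶜ := fun hf a =>
    contDiffOn_const.mul (hf.comp (contDiff_id.const_smul c).contDiffOn fun x hx =>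
      smul_ne_zero hc.ne' hx)
  exact ⟨continuous_const.mul (h.contU.comp (continuous_const_smul c)),
    continuous_const.mul (h.contV.comp (continuous_const_smul c)),
    sm h.smoothU _, sm h.smoothV _,
    fun x => mul_pos (Real.rpow_pos_of_pos hc _) (h.posU _),
    fun x => mul_pos (Real.rpow_pos_of_pos hc _) (h.posV _),
    key h hpq, key h.swap (by rwa [mul_comm])⟩

/-- A bound on the unit ball energy, uniform over all solutions, rules out solutions. -/
theorem nonexistence_of_unit_boundAB (hn : 2 ≤ n) (hA : -2 < A) (hB : -2 < B) (hp : 0 < p)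
    (hq : 0 < q) (hpq : 1 < p * q)
    (hsub : (n : ℝ) - 2 < ((n : ℝ) + A) / (p + 1) + ((n : ℝ) + B) / (q + 1)) {C : ℝ}
    (hC : ∀ u v : EuclideanSpace ℝ (Fin n) → ℝ, IsSolAB A B p q u v →
      ∫ x in closedBall (0 : EuclideanSpace ℝ (Fin n)) 1, energyAB A B p q u v x ≤ C) :
    ¬ ∃ u v : EuclideanSpace ℝ (Fin n) → ℝ, IsSolAB A B p q u v := by
  rintro ⟨u, v, h⟩
  have : Nontrivial (EuclideanSpace ℝ (Fin n)) := Module.nontrivial_of_finrank_pos (R := ℝ)
    (by rw [finrank_euclideanSpace_fin]; omega)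
  set κ := scalExpAB A B p q * (q + 1) - B with hκ
  have hκA : κ = scalExpAB B A q p * (p + 1) - A := (scalExpAB_mul hpq).2
  have hκn : (n : ℝ) < κ := by
    rw [hκ, scalExpAB, div_mul_eq_mul_div, lt_sub_iff_add_lt, lt_div_iff₀ (by linarith)]
    rw [div_add_div _ _ (by linarith) (by linarith), lt_div_iff₀ (by positivity)] at hsub
    nlinarith
  set F := ∫ x in closedBall (0 : EuclideanSpace ℝ (Fin n)) 1, energyAB A B p q u v x with hF
  have hF0 : 0 < F := by
    rw [hF, setIntegral_pos_iff_support_of_nonneg_ae (ae_of_all _ h.energyAB_nonneg)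
      (h.integrableOn_energyAB hn hA hB 1)]
    have hsupp : closedBall (0 : EuclideanSpace ℝ (Fin n)) 1 \ {0} ⊆
        Function.support (energyAB A B p q u v) ∩ closedBall 0 1 := fun x hx => by
      refine ⟨?_, hx.1⟩
      have hx0 : (0 : ℝ) < ‖x‖ := norm_pos_iff.2 (by simpa using hx.2)
      exact ne_of_gt (add_pos (mul_pos (Real.rpow_pos_of_pos hx0 _)
        (Real.rpow_pos_of_pos (h.posU x) _)) (mul_pos (Real.rpow_pos_of_pos hx0 _)
        (Real.rpow_pos_of_pos (h.posV x) _)))
    refine lt_of_lt_of_le ?_ (measure_mono hsupp)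
    rw [measure_sdiff_null (measure_singleton 0)]
    exact measure_closedBall_pos _ _ one_pos
  have hb : ∀ c : ℝ, 1 ≤ c → c ^ (κ - n) * F ≤ C := by
    intro c hc
    have hc0 : 0 < c := by linarith
    refine le_trans ?_ (hC _ _ (h.scale hpq hc0))
    have e : ∀ x, energyAB A B p q (fun x => c ^ scalExpAB A B p q * u (c • x))
        (fun x => c ^ scalExpAB B A q p * v (c • x)) x =
          c ^ κ * energyAB A B p q u v (c • x) := fun x => by
      simp only [energyAB]
      rw [Real.mul_rpow (by positivity) (h.posU _).le, Real.mul_rpow (by positivity) (h.posV _).le,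
        ← Real.rpow_mul hc0.le, ← Real.rpow_mul hc0.le, norm_smul,
        Real.norm_of_nonneg hc0.le, Real.mul_rpow hc0.le (norm_nonneg x),
        Real.mul_rpow hc0.le (norm_nonneg x),
        show scalExpAB A B p q * (q + 1) = κ + B by rw [hκ]; ring,
        show scalExpAB B A q p * (p + 1) = κ + A by rw [hκA]; ring,
        Real.rpow_add hc0, Real.rpow_add hc0]
      ring
    simp only [e]
    rw [integral_const_mul, Measure.setIntegral_comp_smul_of_pos volume _ _ hc0,
      finrank_euclideanSpace_fin, _root_.smul_closedBall _ _ zero_le_one, smul_zero, mul_one,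
      Real.norm_of_nonneg hc0.le, smul_eq_mul, Real.rpow_sub hc0, Real.rpow_natCast,
      div_eq_mul_inv, mul_assoc]
    refine mul_le_mul_of_nonneg_left (mul_le_mul_of_nonneg_left ?_ (by positivity)) (by positivity)
    exact setIntegral_mono_set (h.integrableOn_energyAB hn hA hB c) (ae_of_all _ h.energyAB_nonneg)
      (LE.le.eventuallyLE (closedBall_subset_closedBall hc))
  have ht : Tendsto (fun c : ℝ => c ^ (κ - n) * F) atTop atTop :=
    (tendsto_rpow_atTop (by linarith)).atTop_mul_const hF0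
  obtain ⟨c, hc, hc1⟩ := ((ht.eventually_gt_atTop C).and (eventually_ge_atTop 1)).exists
  exact absurd (hb c hc1) (not_le.2 hc)

end Vale.Agent.P100.SoupletAB
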