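import Mathlib
import Vale.Agent.P100.SuperW

/-!
# The gain inequalities for a weight of either sign, and the elementary cases

With the barrier `‖x‖ ^ (2 + A)` the minimum of `u` over a ball gains from that of `v` for every
real `A > -2`; so `p q ≤ 1` is impossible for any two weights.
-/

open InnerProductSpace Laplacian Filter Topology Set Metric Real

namespace Vale.Agent.P100.SoupletAB

variable {E : Type*} [NormedAddCommGroup E] [InnerProductSpace ℝ E] [FiniteDimensional ℝ E]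

/-- The constant of the gain. -/
noncomputable def gainC (N : ℕ) (A p : ℝ) : ℝ :=
  (2 ^ (2 + A) - 1) / ((2 + A) * (N + A) + 1) * ((1 / 4 : ℝ) ^ ((N : ℝ) + 1)) ^ p

theorem gainC_pos {N : ℕ} (hN : 2 ≤ N) {A : ℝ} (hA : -2 < A) (p : ℝ) : 0 < gainC N A p := by
  have hN' : (2 : ℝ) ≤ N := by exact_mod_cast hN
  have h1 : (1 : ℝ) < 2 ^ (2 + A) := Real.one_lt_rpow one_lt_two (by linarith)
  have h2 : (0 : ℝ) < (2 + A) * (N + A) + 1 := by
    nlinarith [mul_pos (by linarith : (0 : ℝ) < 2 + A) (by linarith : (0 : ℝ) < N + A)]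
  unfold gainC
  exact mul_pos (div_pos (by linarith) h2) (by positivity)

/-- The gain inequality with a weight `A > -2` of either sign. -/
theorem gainAB (hn : 2 ≤ Module.finrank ℝ E) {u v : E → ℝ} (huc : Continuous u) (hvc : Continuous v)
    (hu : ContDiffOn ℝ 2 u {(0 : E)}ᶜ) (hv : ContDiffOn ℝ 2 v {(0 : E)}ᶜ)
    (hup : ∀ x, 0 < u x) (hvp : ∀ x, 0 < v x) (hvl : ∀ x, x ≠ 0 → Δ v x < 0) {p A : ℝ}
    (hp : 0 < p) (hA : -2 < A) (hul : ∀ x, x ≠ 0 → Δ u x ≤ -(‖x‖ ^ A * v x ^ p)) {R : ℝ}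
    (hR : 0 < R) {b : ℝ} (hb : 0 < b) (hbv : ∀ z : E, ‖z‖ ≤ R → b ≤ v z) {x : E} (hx : ‖x‖ ≤ R) :
    gainC (Module.finrank ℝ E) A p * R ^ (2 + A) * b ^ p ≤ u x := by
  set N : ℝ := (Module.finrank ℝ E : ℝ) with hN0
  have hN : 2 ≤ N := by rw [hN0]; exact_mod_cast hn
  set a : ℝ := N + 1 with ha'
  have ha : 0 < a := by linarith
  have hlow : ∀ y : E, ‖y‖ ≤ 2 * R → (1 / 4 : ℝ) ^ a * b ≤ v y := by
    intro y hy
    have hk : (1 / 4 : ℝ) ^ a ≤ 1 :=
      Real.rpow_le_one (by norm_num) (by norm_num) ha.le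
    rcases le_total ‖y‖ R with h | h
    · exact le_trans (mul_le_of_le_one_left hb.le hk) (hbv y h)
    · refine le_trans ?_ (Super.exterior_bound hvc hv hvp hvl ha (by linarith) hR hb.le hbv h)
      rw [mul_comm b]
      have hy0 : 0 < ‖y‖ := lt_of_lt_of_le hR h
      refine mul_le_mul_of_nonneg_right (Real.rpow_le_rpow (by norm_num) ?_ ha.le) hb.le
      rw [div_le_div_iff₀ (by norm_num) (by positivity)]
      nlinarith
  set D : ℝ := (2 + A) * (N + A) + 1 with hD
  have hD0 : 0 < D := by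
    rw [hD]
    nlinarith [mul_pos (by linarith : (0 : ℝ) < 2 + A) (by linarith : (0 : ℝ) < N + A)]
  set c : ℝ := ((1 / 4 : ℝ) ^ a * b) ^ p / D with hc
  have hkb : 0 < (1 / 4 : ℝ) ^ a * b := by positivity
  have hc0 : 0 < c := by positivity
  set φ : E → ℝ := fun y => (‖y‖ ^ 2) ^ ((2 + A) / 2) with hφ
  have hφc : Continuous φ :=
    (Real.continuous_rpow_const (by linarith : (0 : ℝ) ≤ (2 + A) / 2)).comp (by fun_prop)
  have hφn : ∀ y : E, φ y = ‖y‖ ^ (2 + A) := fun y => by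
    show (‖y‖ ^ 2) ^ ((2 + A) / 2) = _
    rw [← Real.rpow_two, ← Real.rpow_mul (norm_nonneg y)]
    congr 1
    ring
  have hφd : ∀ y : E, y ≠ 0 → ContDiffAt ℝ 2 φ y := fun y hy =>
    (Real.contDiffAt_rpow_const_of_ne (by positivity)).comp y (contDiffAt_id.norm_sq ℝ)
  have hmain := Super.min_principle_puncture hn (isCompact_closedBall (0 : E) (2 * R)) isOpen_ball
    ball_subset_closedBall (f := fun y => u y + c • φ y) ?_ ?_ ?_
    (m := c * (2 * R) ^ (2 + A)) ?_ x (by simpa using hx.trans (by linarith))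
  · simp only [smul_eq_mul, hφn] at hmain
    have h2 : c * ‖x‖ ^ (2 + A) ≤ c * R ^ (2 + A) :=
      mul_le_mul_of_nonneg_left (Real.rpow_le_rpow (norm_nonneg x) hx (by linarith)) hc0.le
    rw [Real.mul_rpow zero_le_two hR.le] at hmain
    have e : gainC (Module.finrank ℝ E) A p * R ^ (2 + A) * b ^ p =
        c * (2 ^ (2 + A) * R ^ (2 + A)) - c * R ^ (2 + A) := by
      rw [gainC, hc, hD, ha', Real.mul_rpow (by positivity) hb.le, ← hN0]
      ring
    linarith
  · exact (huc.add (hφc.const_smul c)).continuousOn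
  · exact fun y _ hy0 =>
      (hu.contDiffAt (isOpen_compl_singleton.mem_nhds hy0)).add ((hφd y hy0).const_smul c)
  · intro y hy hy0
    have e1 : Δ (fun y => u y + c • φ y) y = Δ u y + c • Δ φ y := by
      rw [← laplacian_smul c (hφd y hy0)]
      exact (hu.contDiffAt (isOpen_compl_singleton.mem_nhds hy0)).laplacian_add
        ((hφd y hy0).const_smul c)
    have hy0' : 0 < ‖y‖ := norm_pos_iff.2 hy0
    have e2 : Δ φ y = (2 + A) * (N + A) * ‖y‖ ^ A := by
      rw [hφ, Super.lap_rpow hy0, ← Real.rpow_two, ← Real.rpow_mul (norm_nonneg y),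
        show (2 : ℝ) * ((2 + A) / 2 - 1) = A by ring, ← hN0]
      ring
    rw [e1, e2, smul_eq_mul]
    have hy2 : ‖y‖ ≤ 2 * R := le_of_lt (by simpa using hy)
    have h3 : ‖y‖ ^ A * (c * D) ≤ ‖y‖ ^ A * v y ^ p := by
      refine mul_le_mul_of_nonneg_left ?_ (Real.rpow_nonneg (norm_nonneg y) A)
      rw [hc, div_mul_cancel₀ _ hD0.ne']
      exact Real.rpow_le_rpow hkb.le (hlow y hy2) hp.le
    have h4 : 0 < ‖y‖ ^ A * c := by positivity
    have := hul y hy0
    nlinarith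
  · intro y hy hy'
    have h : ‖y‖ = 2 * R := le_antisymm (by simpa using hy) (by simpa using hy')
    simp only [smul_eq_mul, hφn, h]
    linarith [hup y]

/-- No positive supersolutions when `p q ≤ 1`, for weights above `-2` of either sign. -/
theorem no_supersolutionAB_mul_le_one (hn : 2 ≤ Module.finrank ℝ E) {u v : E → ℝ} {p q A B : ℝ}
    (hp : 0 < p) (hq : 0 < q) (hA : -2 < A) (hB : -2 < B)
    (hpq : p * q ≤ 1) (huc : Continuous u) (hvc : Continuous v)
    (hu : ContDiffOn ℝ 2 u {(0 : E)}ᶜ) (hv : ContDiffOn ℝ 2 v {(0 : E)}ᶜ)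
    (hup : ∀ x, 0 < u x) (hvp : ∀ x, 0 < v x)
    (hul : ∀ x, x ≠ 0 → Δ u x ≤ -(‖x‖ ^ A * v x ^ p))
    (hvl : ∀ x, x ≠ 0 → Δ v x ≤ -(‖x‖ ^ B * u x ^ q)) : False := by
  have hu' : ∀ x, x ≠ 0 → Δ u x < 0 := fun x hx =>
    lt_of_le_of_lt (hul x hx) (Super.rhsW_neg hvp A p hx)
  have hv' : ∀ x, x ≠ 0 → Δ v x < 0 := fun x hx =>
    lt_of_le_of_lt (hvl x hx) (Super.rhsW_neg hup B q hx)
  set c₁ := gainC (Module.finrank ℝ E) A p
  set c₂ := gainC (Module.finrank ℝ E) B q
  have hc₁ : 0 < c₁ := gainC_pos hn hA p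
  have hc₂ : 0 < c₂ := gainC_pos hn hB q
  set e : ℝ := (2 + A) + (2 + B) * p
  have hpos : 0 < e := add_pos (by linarith) (mul_pos (by linarith) hp)
  set K : ℝ := c₁ * c₂ ^ p
  have hK : 0 < K := by positivity
  have hev : ∀ᶠ R : ℝ in atTop, K * R ^ e ≤ u 0 ^ (1 - p * q) := by
    filter_upwards [eventually_gt_atTop 0] with R hR
    obtain ⟨xu, hxu, hxu'⟩ := (isCompact_closedBall (0 : E) R).exists_isMinOn
      ⟨0, by simpa using hR.le⟩ huc.continuousOn
    obtain ⟨xv, hxv, hxv'⟩ := (isCompact_closedBall (0 : E) R).exists_isMinOn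
      ⟨0, by simpa using hR.le⟩ hvc.continuousOn
    have g1 : c₁ * R ^ (2 + A) * v xv ^ p ≤ u xu :=
      gainAB hn huc hvc hu hv hup hvp hv' hp hA hul hR (hvp xv)
        (fun z hz => hxv' (by simpa using hz)) (by simpa using hxu)
    have g2 : c₂ * R ^ (2 + B) * u xu ^ q ≤ v xv :=
      gainAB hn hvc huc hv hu hvp hup hu' hq hB hvl hR (hup xu)
        (fun z hz => hxu' (by simpa using hz)) (by simpa using hxv)
    have hux := hup xu
    have h : K * R ^ e * u xu ^ (p * q) ≤ u xu := by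
      refine le_trans (le_of_eq ?_) ((mul_le_mul_of_nonneg_left
        (Real.rpow_le_rpow (by positivity) g2 hp.le) (by positivity)).trans g1)
      rw [Real.mul_rpow (by positivity) (by positivity), Real.mul_rpow hc₂.le (by positivity),
        ← Real.rpow_mul hR.le, ← Real.rpow_mul hux.le, mul_comm q p, Real.rpow_add hR]
      ring
    have h6 : K * R ^ e ≤ u xu ^ (1 - p * q) := by
      rw [Real.rpow_sub hux, Real.rpow_one, le_div_iff₀ (Real.rpow_pos_of_pos hux _)]
      exact h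
    exact h6.trans (Real.rpow_le_rpow hux.le (hxu' (by simpa using hR.le)) (by linarith))
  have ht : Tendsto (fun R : ℝ => K * R ^ e) atTop atTop :=
    (tendsto_rpow_atTop hpos).const_mul_atTop hK
  obtain ⟨R, h1, h2⟩ := (hev.and (ht.eventually_gt_atTop (u 0 ^ (1 - p * q)))).exists
  linarith

end Vale.Agent.P100.SoupletAB
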