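import Mathlib
import Vale.Agent.P100.SoupletW.L1
import Vale.Agent.P100.SoupletAB.Defs
import Vale.Agent.P100.SoupletAB.Gain

/-!
# Uniform bounds with two weights above `-2`

The integrals of `u`, `v` over `‖x‖ ≤ 4` and of `v ^ p`, `u ^ q` over `1/2 ≤ ‖x‖ ≤ 4` are bounded
independently of the solution, whatever the signs of the weights.
-/

open MeasureTheory Filter Set Metric Topology Laplacian

namespace Vale.Agent.P100.SoupletAB

open Souplet

variable {n : ℕ} {A B p q : ℝ}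

/-- Some point of norm `4` carries uniformly bounded values. -/
theorem sphere_value_boundAB (hn : 3 ≤ n) (hA : -2 < A) (hB : -2 < B) (hp : 0 < p) (hq : 0 < q)
    (hpq : 1 < p * q) :
    ∃ C : ℝ, 0 ≤ C ∧ ∀ u v : EuclideanSpace ℝ (Fin n) → ℝ, IsSolAB A B p q u v →
      ∃ x, ‖x‖ = 4 ∧ u x ≤ C := by
  have hdim : 2 ≤ Module.finrank ℝ (EuclideanSpace ℝ (Fin n)) := by
    rw [finrank_euclideanSpace_fin]; omega
  set a₁ : ℝ := gainC (Module.finrank ℝ (EuclideanSpace ℝ (Fin n))) A p * 4 ^ (2 + A) with ha₁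
  set a₂ : ℝ := gainC (Module.finrank ℝ (EuclideanSpace ℝ (Fin n))) B q * 4 ^ (2 + B) with ha₂
  have h1 : 0 < a₁ := mul_pos (gainC_pos hdim hA p) (by positivity)
  have h2 : 0 < a₂ := mul_pos (gainC_pos hdim hB q) (by positivity)
  refine ⟨(1 / (a₁ * a₂ ^ p)) ^ (1 / (p * q - 1)), by positivity, fun u v h => ?_⟩
  have : Nontrivial (EuclideanSpace ℝ (Fin n)) :=
    Module.nontrivial_of_finrank_pos (R := ℝ) (by omega)
  obtain ⟨xu, hxu, hxu'⟩ := (isCompact_closedBall (0 : EuclideanSpace ℝ (Fin n)) 4).exists_isMinOn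
    ⟨0, by simp⟩ h.contU.continuousOn
  obtain ⟨xv, hxv, hxv'⟩ := (isCompact_closedBall (0 : EuclideanSpace ℝ (Fin n)) 4).exists_isMinOn
    ⟨0, by simp⟩ h.contV.continuousOn
  have hxu0 : ‖xu‖ ≤ 4 := by simpa using hxu
  have hxv0 : ‖xv‖ ≤ 4 := by simpa using hxv
  have lu : ∀ x, x ≠ 0 → Laplacian.laplacian u x < 0 := fun x hx => by
    rw [h.eqU x hx]; exact Super.rhsW_neg h.posV A p hx
  have lv : ∀ x, x ≠ 0 → Laplacian.laplacian v x < 0 := fun x hx => by
    rw [h.eqV x hx]; exact Super.rhsW_neg h.posU B q hx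
  have g1 : a₁ * v xv ^ p ≤ u xu :=
    gainAB hdim h.contU h.contV h.smoothU h.smoothV h.posU h.posV lv hp hA
      (fun x hx => (h.eqU x hx).le) (by norm_num) (h.posV xv)
      (fun z hz => hxv' (by simpa using hz)) hxu0
  have g2 : a₂ * u xu ^ q ≤ v xv :=
    gainAB hdim h.contV h.contU h.smoothV h.smoothU h.posV h.posU lu hq hB
      (fun x hx => (h.eqV x hx).le) (by norm_num) (h.posU xu)
      (fun z hz => hxu' (by simpa using hz)) hxv0
  have hu := h.posU xu
  have g3 : a₁ * a₂ ^ p * u xu ^ (p * q) ≤ u xu := by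
    refine le_trans (le_of_eq ?_) ((mul_le_mul_of_nonneg_left
      (Real.rpow_le_rpow (by positivity) g2 hp.le) h1.le).trans g1)
    rw [Real.mul_rpow h2.le (by positivity), ← Real.rpow_mul hu.le, mul_comm q p, mul_assoc]
  have g4 : u xu ≤ (1 / (a₁ * a₂ ^ p)) ^ (1 / (p * q - 1)) := by
    rw [one_div (p * q - 1), Real.le_rpow_inv_iff_of_pos hu.le (by positivity) (by linarith),
      le_div_iff₀ (by positivity), Real.rpow_sub hu, Real.rpow_one, div_mul_eq_mul_div,
      div_le_one hu]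
    linarith
  obtain ⟨x, hx, hxmin⟩ := (isCompact_sphere (0 : EuclideanSpace ℝ (Fin n)) 4).exists_isMinOn
    (NormedSpace.sphere_nonempty.2 (by norm_num)) h.contU.continuousOn
  refine ⟨x, by simpa using hx, le_trans ?_ g4⟩
  exact Super.min_principle_puncture hdim (isCompact_closedBall _ _) isOpen_ball
    ball_subset_closedBall h.contU.continuousOn
    (fun y _ hy => h.smoothU.contDiffAt (isOpen_compl_singleton.mem_nhds hy))
    (fun y _ hy => lu y hy) (fun y hy hy' => hxmin (by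
      simp only [mem_closedBall, mem_ball, not_lt] at hy hy'
      simpa using le_antisymm hy hy')) xu hxu

/-- A continuous weight below `‖y‖ ^ A`, equal to it for `1/2 ≤ ‖y‖`. -/
noncomputable def wLow (A : ℝ) (y : EuclideanSpace ℝ (Fin n)) : ℝ :=
  max ‖y‖ (1 / 2) ^ A * min (2 * ‖y‖) 1 ^ max A 0

theorem wLow_facts (A : ℝ) :
    Continuous (wLow (n := n) A) ∧ (∀ y, 0 ≤ wLow (n := n) A y) ∧
      (∀ y : EuclideanSpace ℝ (Fin n), y ≠ 0 → wLow A y ≤ ‖y‖ ^ A) ∧
      ∀ y : EuclideanSpace ℝ (Fin n), 1 / 2 ≤ ‖y‖ → wLow A y = ‖y‖ ^ A := by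
  refine ⟨?_, fun y => ?_, fun y hy => ?_, fun y hy => ?_⟩
  · exact (Continuous.rpow_const (by fun_prop) fun y =>
      Or.inl (lt_of_lt_of_le (by norm_num : (0 : ℝ) < 1 / 2) (le_max_right _ _)).ne').mul
      (Continuous.rpow_const (by fun_prop) fun y => Or.inr (le_max_right _ _))
  · exact mul_nonneg (Real.rpow_nonneg (le_trans (norm_nonneg y) (le_max_left _ _)) _)
      (Real.rpow_nonneg (le_min (by positivity) zero_le_one) _)
  · have hy0 : 0 < ‖y‖ := norm_pos_iff.2 hy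
    rcases le_or_gt (1 / 2) ‖y‖ with h | h
    · rw [wLow, max_eq_left h, min_eq_right (by linarith), Real.one_rpow, mul_one]
    rw [wLow, max_eq_right h.le, min_eq_left (by linarith)]
    rcases le_total A 0 with hA | hA
    · rw [max_eq_right hA, Real.rpow_zero, mul_one]
      exact Real.rpow_le_rpow_of_nonpos hy0 h.le hA
    · rw [max_eq_left hA, ← Real.mul_rpow (by norm_num) (by positivity)]
      exact le_of_eq (by ring_nf)
  · rw [wLow, max_eq_left hy, min_eq_right (by linarith), Real.one_rpow, mul_one]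

/-- Bounds uniform over all solutions. -/
theorem ann_boundsAB (hn : 3 ≤ n) (hA : -2 < A) (hB : -2 < B) (hp : 0 < p) (hq : 0 < q)
    (hpq : 1 < p * q) :
    ∃ C : ℝ, 0 ≤ C ∧ ∀ u v : EuclideanSpace ℝ (Fin n) → ℝ, IsSolAB A B p q u v →
      (∫ y in closedBall (0 : EuclideanSpace ℝ (Fin n)) 4, u y) ≤ C ∧
      (∫ y in closedBall (0 : EuclideanSpace ℝ (Fin n)) 4, v y) ≤ C ∧
      (∫ y in ann n 4, v y ^ p) ≤ C ∧ (∫ y in ann n 4, u y ^ q) ≤ C := by
  obtain ⟨C₀, hC₀, hb⟩ := point_bounds hn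
  obtain ⟨C₃, hC₃, hm⟩ := SoupletW.ball_mass hn
  obtain ⟨C₁, hC₁, hs1⟩ := sphere_value_boundAB hn hA hB hp hq hpq
  obtain ⟨C₂, hC₂, hs2⟩ := sphere_value_boundAB hn hB hA hq hp (by rwa [mul_comm])
  refine ⟨(C₀ * (4 ^ |A| + 4 ^ |B|) + C₃) * (C₁ + C₂ + 1), by positivity, fun u v h => ?_⟩
  have key : ∀ {A' B' p' q' : ℝ} {u' v' : EuclideanSpace ℝ (Fin n) → ℝ} (C : ℝ),
      IsSolAB A' B' p' q' u' v' → (4 : ℝ) ^ |A'| ≤ 4 ^ |A| + 4 ^ |B| →
      C ≤ C₁ + C₂ → (∃ x, ‖x‖ = 4 ∧ u' x ≤ C) →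
      (∫ y in closedBall (0 : EuclideanSpace ℝ (Fin n)) 4, u' y) ≤
          (C₀ * (4 ^ |A| + 4 ^ |B|) + C₃) * (C₁ + C₂ + 1) ∧
        (∫ y in ann n 4, v' y ^ p') ≤ (C₀ * (4 ^ |A| + 4 ^ |B|) + C₃) * (C₁ + C₂ + 1) := by
    intro A' B' p' q' u' v' C h' hA' hC ⟨x, hx, hux⟩
    have hu1 : u' x + 1 ≤ C₁ + C₂ + 1 := by linarith
    have h0 : 0 ≤ C₀ * (4 ^ |A| + 4 ^ |B|) := by positivity
    have hsum : 0 ≤ C₁ + C₂ + 1 := by linarith
    constructor
    · refine (hm u' h'.contU (fun y hy => h'.contDiffAtU hy) (fun y => (h'.posU y).le)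
        (fun y hy => by rw [h'.eqU y hy]; exact (Super.rhsW_neg h'.posV A' p' hy).le) x hx).trans ?_
      refine (mul_le_mul_of_nonneg_left hu1 hC₃).trans ?_
      exact mul_le_mul_of_nonneg_right (by linarith) hsum
    · obtain ⟨w1, w2, w3, w4⟩ := wLow_facts (n := n) A'
      set f : EuclideanSpace ℝ (Fin n) → ℝ := fun y => wLow A' y * v' y ^ p' with hf
      have hfc : Continuous f := w1.mul (h'.contV.rpow_const fun y => Or.inl (h'.posV y).ne')
      have hf0 : ∀ y, 0 ≤ f y := fun y => mul_nonneg (w2 y) (Real.rpow_nonneg (h'.posV y).le _)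
      obtain ⟨-, r2⟩ := hb u' f h'.contU (fun y hy => h'.contDiffAtU hy)
        (fun y => (h'.posU y).le) hfc hf0 (fun y hy => by
          rw [h'.eqU y hy]
          exact neg_le_neg (mul_le_mul_of_nonneg_right (w3 y hy) (Real.rpow_nonneg (h'.posV y).le _)))
        x hx
      have hle : (∫ y in ann n 4, v' y ^ p') ≤ ∫ y in ann n 4, 4 ^ |A'| * f y := by
        refine setIntegral_mono_on ?_ ((hfc.continuousOn.integrableOn_compact
          (isCompact_ann n 4)).const_mul _) (measurableSet_ann n 4) fun y hy => ?_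
        · exact (h'.contV.rpow_const fun y => Or.inl (h'.posV y).ne').continuousOn.integrableOn_compact
            (isCompact_ann n 4)
        · simp only [hf, w4 y hy.1, ← mul_assoc]
          exact le_mul_of_one_le_left (Real.rpow_nonneg (h'.posV y).le _)
            (rpow_ann_bounds A' (by linarith [hy.1]) hy.2).2
      rw [integral_const_mul] at hle
      refine hle.trans ((mul_le_mul hA' (r2.trans (mul_le_mul_of_nonneg_left hu1 hC₀))
        (setIntegral_nonneg (measurableSet_ann n 4) fun y _ => hf0 y) (by positivity)).trans ?_)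
      rw [← mul_assoc, mul_comm _ C₀]
      exact mul_le_mul_of_nonneg_right (by linarith) hsum
  obtain ⟨a, b⟩ := key C₁ h (le_add_of_nonneg_right (by positivity)) (by linarith) (hs1 u v h)
  obtain ⟨c, d⟩ := key C₂ h.swap (le_add_of_nonneg_left (by positivity)) (by linarith)
    (hs2 v u h.swap)
  exact ⟨a, c, b, d⟩

end Vale.Agent.P100.SoupletAB
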