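import Mathlib
import Vale.Agent.P100.Compare
import Vale.Agent.P100.SoupletAB.L1

/-!
# A local comparison of the components, for any two weights

For `q ≤ p` and `σ = (q + 1)/(p + 1)` the positive part of `v - l u ^ σ` is subharmonic on the
annulus once `l` is large, so on `1 ≤ ‖x‖ ≤ 2` it is bounded by an average of `v`. No relation
between the weights, no sign of theirs and no behaviour at infinity is used.
-/

open MeasureTheory Filter Set Metric Topology Laplacian

namespace Vale.Agent.P100.SoupletAB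

open Souplet

variable {n : ℕ} {A B p q : ℝ}

/-- `v - l u ^ σ` is subharmonic where it is positive, for `l` large. -/
theorem laplacian_gapL_nonneg (hp : 0 < p) (hq : 0 < q) (hqp : q ≤ p) {l : ℝ} (hl : 0 < l)
    {u v : EuclideanSpace ℝ (Fin n) → ℝ} {z : EuclideanSpace ℝ (Fin n)} {Wu Wv : ℝ}
    (hWu : 0 ≤ Wu) (hl' : Wv ≤ (q + 1) / (p + 1) * l ^ (p + 1) * Wu)
    (hu : ContDiffAt ℝ 2 u z) (hv : ContDiffAt ℝ 2 v z) (hu0 : 0 < u z)
    (equ : Laplacian.laplacian u z = -(Wu * v z ^ p))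
    (eqv : Laplacian.laplacian v z = -(Wv * u z ^ q))
    (hz : 0 < v z - l * u z ^ ((q + 1) / (p + 1))) :
    0 ≤ Laplacian.laplacian (fun y => v y - l * u y ^ ((q + 1) / (p + 1))) z := by
  set s := (q + 1) / (p + 1) with hs
  have hs0 : 0 < s := by positivity
  have hs1 : s ≤ 1 := (div_le_one (by positivity)).2 (by linarith)
  have hus : ContDiffAt ℝ 2 (fun y => (u y) ^ s) z := hu.rpow_const_of_ne hu0.ne'
  have hLs : Laplacian.laplacian (fun y => (u y) ^ s) z ≤
      s * (u z) ^ (s - 1) * Laplacian.laplacian u z := by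
    rw [laplacian_comp hu (g := fun t => t ^ s) (g' := fun t => s * t ^ (s - 1))
      (g'' := fun t => s * ((s - 1) * t ^ (s - 1 - 1))) isOpen_Ioi (Set.mem_Ioi.2 hu0)
      (fun t ht => Real.hasDerivAt_rpow_const (Or.inl (ne_of_gt ht)))
      (fun t ht => (Real.hasDerivAt_rpow_const (Or.inl (ne_of_gt ht))).const_mul s)]
    have : s * ((s - 1) * (u z) ^ (s - 1 - 1)) ≤ 0 :=
      mul_nonpos_of_nonneg_of_nonpos hs0.le
        (mul_nonpos_of_nonpos_of_nonneg (by linarith) (Real.rpow_nonneg hu0.le _))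
    have := mul_nonpos_of_nonpos_of_nonneg this
      (Finset.sum_nonneg fun i (_ : i ∈ Finset.univ) => sq_nonneg (fderiv ℝ u z (stdB i)))
    linarith
  have hlin : Laplacian.laplacian (fun y => v y - l * u y ^ s) z = Laplacian.laplacian v z
      - l * Laplacian.laplacian (fun y => (u y) ^ s) z := by
    have e : (fun y => v y - l * u y ^ s) = v + (-l) • fun y => (u y) ^ s := by
      ext; simp; ring
    rw [e, hv.laplacian_add (f₂ := (-l) • fun y => (u y) ^ s) (hus.const_smul (-l)),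
      InnerProductSpace.laplacian_smul (-l) hus]
    simp
    ring
  have hpow : l ^ p * (u z) ^ (s * p) ≤ (v z) ^ p := by
    rw [Real.rpow_mul hu0.le, ← Real.mul_rpow hl.le (Real.rpow_nonneg hu0.le _)]
    exact Real.rpow_le_rpow (by positivity) (by linarith) hp.le
  have e1 : (u z) ^ (s - 1) * (u z) ^ (s * p) = (u z) ^ q := by
    rw [← Real.rpow_add hu0]
    congr 1
    rw [hs]; field_simp; ring
  have h1 := mul_le_mul_of_nonneg_left hpow
    (show 0 ≤ s * (u z) ^ (s - 1) * l * Wu by positivity)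
  have h2 := mul_le_mul_of_nonneg_left hLs hl.le
  have h3 := mul_le_mul_of_nonneg_right hl' (Real.rpow_nonneg hu0.le q)
  rw [hlin, eqv]
  rw [equ] at h2
  have e3 : s * (u z) ^ (s - 1) * l * Wu * (l ^ p * (u z) ^ (s * p)) =
      s * l ^ (p + 1) * Wu * u z ^ q := by
    rw [Real.rpow_add_one hl.ne', ← e1]; ring
  rw [e3] at h1
  linarith

/-- **Local comparison**: `v ≤ l u ^ σ + C` on `1 ≤ ‖x‖ ≤ 2`, uniformly over all solutions. -/
theorem local_comparison (hn : 3 ≤ n) (hA : -2 < A) (hB : -2 < B) (hq : 0 < q) (hqp : q ≤ p)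
    (hpq : 1 < p * q) :
    ∃ l C : ℝ, 0 ≤ l ∧ 0 ≤ C ∧ ∀ u v : EuclideanSpace ℝ (Fin n) → ℝ, IsSolAB A B p q u v →
      ∀ x, 1 ≤ ‖x‖ → ‖x‖ ≤ 2 → v x ≤ l * u x ^ ((q + 1) / (p + 1)) + C := by
  have hp : 0 < p := hq.trans_le hqp
  obtain ⟨C₀, hC₀, hb⟩ := ann_boundsAB (n := n) hn hA hB hp hq hpq
  set I : ℝ := ∫ y : EuclideanSpace ℝ (Fin n), avgW y with hI
  have hI0 : 0 < I := integral_avgW_pos
  set σ : ℝ := (q + 1) / (p + 1) with hσ
  have hσ0 : 0 < σ := by positivity
  set L : ℝ := 4 ^ |B| * 4 ^ |A| / σ with hL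
  set l : ℝ := L ^ (1 / (p + 1)) with hl
  have hl0 : 0 < l := by positivity
  refine ⟨l, 2 ^ n * C₀ / I + 2, hl0.le, by positivity, fun u v h x hx1 hx2 => ?_⟩
  let b : ContDiffBump (0 : EuclideanSpace ℝ (Fin n)) :=
    ⟨1 / 4, 2 / 5, by norm_num, by norm_num⟩
  set g : EuclideanSpace ℝ (Fin n) → ℝ := fun y => v y - l * u y ^ σ with hg
  set U : EuclideanSpace ℝ (Fin n) → ℝ := fun y => (1 - b y) * hPos (g y) with hU
  have hzero : U =ᶠ[𝓝 0] fun _ => 0 := by
    filter_upwards [closedBall_mem_nhds (0 : EuclideanSpace ℝ (Fin n)) b.rIn_pos] with y hy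
    simp [hU, b.one_of_mem_closedBall hy]
  have hgd : ∀ y, y ≠ 0 → ContDiffAt ℝ 2 g y := fun y hy =>
    (h.swap.contDiffAtU hy).sub
      (contDiffAt_const.mul ((h.contDiffAtU hy).rpow_const_of_ne (h.posU y).ne'))
  have hUd : ContDiff ℝ 2 U := contDiff_iff_contDiffAt.2 fun y => by
    by_cases hy : y = 0
    · subst hy; exact contDiffAt_const.congr_of_eventuallyEq hzero
    · exact (contDiffAt_const.sub b.contDiff.contDiffAt).mul
        ((contDiff_hPos.contDiffAt).comp y (hgd y hy))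
  have hUv : ∀ y, U y ≤ v y := fun y => by
    have h1 : hPos (g y) ≤ v y := by
      refine (hPos_le _).trans (max_le ?_ (h.posV y).le)
      have : 0 ≤ l * u y ^ σ := mul_nonneg hl0.le (Real.rpow_nonneg (h.posU y).le _)
      simp only [hg]; linarith
    have h2 : 0 ≤ b y := b.nonneg
    have h3 : b y ≤ 1 := b.le_one
    calc U y ≤ (1 - b y) * v y := mul_le_mul_of_nonneg_left h1 (by linarith)
      _ ≤ v y := mul_le_of_le_one_left (h.posV y).le (by linarith)
  have hsub : ∀ z : EuclideanSpace ℝ (Fin n), 1 / 2 ≤ ‖z‖ → ‖z‖ ≤ 4 →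
      0 ≤ Laplacian.laplacian U z := by
    intro z hz hz4
    have hz0 : z ≠ 0 := norm_ne_zero_iff.1 (by linarith)
    have he : U =ᶠ[𝓝 z] fun y => hPos (g y) := by
      filter_upwards [(isOpen_lt continuous_const continuous_norm).mem_nhds
        (show (2 / 5 : ℝ) < ‖z‖ by linarith)] with y hy
      simp [hU, b.zero_of_le_dist (x := y) (by simpa using le_of_lt hy)]
    rw [(InnerProductSpace.laplacian_congr_nhds he).self_of_nhds]
    refine laplacian_hPos_comp (hgd z hz0) fun hgz => ?_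
    refine laplacian_gapL_nonneg hp hq hqp hl0 (Real.rpow_nonneg (norm_nonneg z) A) ?_
      (h.contDiffAtU hz0) (h.swap.contDiffAtU hz0) (h.posU z) (h.eqU z hz0) (h.eqV z hz0) hgz
    have e : l ^ (p + 1) = L := by
      rw [hl, ← Real.rpow_mul (by positivity), one_div, inv_mul_cancel₀ (by positivity),
        Real.rpow_one]
    rw [← hσ, e, hL, mul_div_cancel₀ _ hσ0.ne', mul_assoc]
    refine (rpow_ann_bounds B (by linarith) hz4).1.trans ?_
    exact le_mul_of_one_le_right (by positivity) (rpow_ann_bounds A (by linarith) hz4).2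
  have hmono : avg U x 0 ≤ avg U x (1 / 2) := by
    refine monotoneOn_of_hasDerivWithinAt_nonneg (convex_Icc (0 : ℝ) (1 / 2))
      (fun R _ => (hasDerivAt_avg hUd x R).continuousAt.continuousWithinAt)
      (fun R _ => (hasDerivAt_avg hUd x R).hasDerivWithinAt) ?_
      (left_mem_Icc.2 (by norm_num)) (right_mem_Icc.2 (by norm_num)) (by norm_num)
    intro R hR
    rw [interior_Icc] at hR
    refine mul_nonneg hR.1.le (integral_nonneg fun y => ?_)
    rcases le_or_gt 1 ‖y‖ with hy | hy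
    · simp [avgPot_eq_zero hy]
    have hyR : ‖R • y‖ ≤ 1 / 2 := by
      rw [norm_smul, Real.norm_of_nonneg hR.1.le]
      nlinarith [norm_nonneg y, hR.1, hR.2]
    refine mul_nonneg (hsub _ ?_ ?_) (avgPot_nonneg y)
    · have := norm_sub_norm_le x (-(R • y))
      rw [sub_neg_eq_add, norm_neg] at this
      linarith
    · linarith [norm_add_le x (R • y)]
  rw [avg_zero, ← hI] at hmono
  have hball : avg U x (1 / 2) ≤ 2 ^ n * C₀ := by
    have hv0 : ∀ y, 0 ≤ v y := fun y => (h.posV y).le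
    have h1 : avg U x (1 / 2) ≤ avg v x (1 / 2) :=
      integral_mono (integrable_mul_avgW (hUd.continuous.comp (by fun_prop)))
        (integrable_mul_avgW (h.contV.comp (by fun_prop))) fun y =>
          mul_le_mul_of_nonneg_right (hUv _) (avgW_nonneg y)
    refine h1.trans ?_
    have e : avg v x (1 / 2) =
        ((1 / 2 : ℝ) ^ n)⁻¹ * ∫ z, v z * avgW ((1 / 2 : ℝ)⁻¹ • (z - x)) := by
      rw [← integral_comp_affine _ x (by norm_num : (0 : ℝ) ≤ 1 / 2)]
      simp only [add_sub_cancel_left, smul_smul,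
        inv_mul_cancel₀ (by norm_num : (1 / 2 : ℝ) ≠ 0), one_smul]
      rfl
    rw [e, one_div, inv_pow, inv_inv]
    refine mul_le_mul_of_nonneg_left (le_trans ?_ (hb u v h).2.1) (by positivity)
    rw [← integral_indicator isClosed_closedBall.measurableSet]
    refine integral_mono_of_nonneg (Eventually.of_forall fun z => mul_nonneg (hv0 z) (avgW_nonneg _))
      ((h.contV.continuousOn.integrableOn_compact (isCompact_closedBall _ _)).integrable_indicator
        isClosed_closedBall.measurableSet) (Eventually.of_forall fun z => ?_)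
    show v z * avgW ((2 : ℝ)⁻¹⁻¹ • (z - x)) ≤ (closedBall (0 : EuclideanSpace ℝ (Fin n)) 4).indicator v z
    by_cases hz : z ∈ closedBall (0 : EuclideanSpace ℝ (Fin n)) 4
    · rw [indicator_of_mem hz]
      refine mul_le_of_le_one_right (hv0 z) (pow_le_one₀ (le_max_right _ _) ?_)
      exact max_le (by nlinarith [norm_nonneg ((2 : ℝ)⁻¹⁻¹ • (z - x))]) zero_le_one
    · rw [indicator_of_notMem hz, avgW_eq_zero, mul_zero]
      rw [mem_closedBall, dist_zero_right, not_le] at hz
      rw [norm_smul, inv_inv, Real.norm_of_nonneg zero_le_two]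
      linarith [norm_le_norm_sub_add z x]
  have hUx : U x = hPos (g x) := by
    simp [hU, b.zero_of_le_dist (x := x) (show (2 / 5 : ℝ) ≤ dist x 0 by
      rw [dist_zero_right]; linarith)]
  have h4 : hPos (g x) ≤ 2 ^ n * C₀ / I := by
    rw [le_div_iff₀ hI0, ← hUx]; linarith
  have h5 : g x ≤ hPos (g x) + 2 := by
    have := le_max_left (g x) 0
    have := Real.arctan_lt_pi_div_two (max (g x) 0)
    have := Real.pi_le_four
    unfold hPos; linarith
  simp only [hg] at h5 h4
  linarith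

/-- The energy on the annulus is controlled by `u` alone. -/
theorem energy_le_u (hn : 3 ≤ n) (hA : -2 < A) (hB : -2 < B) (hq : 0 < q) (hqp : q ≤ p)
    (hpq : 1 < p * q) :
    ∃ K : ℝ, 0 ≤ K ∧ ∀ u v : EuclideanSpace ℝ (Fin n) → ℝ, IsSolAB A B p q u v →
      ∀ x, 1 ≤ ‖x‖ → ‖x‖ ≤ 2 → energy p q u v x ≤ K * (u x + 1) ^ (q + 1) := by
  have hp : 0 < p := hq.trans_le hqp
  obtain ⟨l, C, hl, hC, hlc⟩ := local_comparison (n := n) hn hA hB hq hqp hpq
  refine ⟨1 + (l + C) ^ (p + 1), by positivity, fun u v h x h1 h2 => ?_⟩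
  have hu := (h.posU x).le
  have hv : v x ≤ (l + C) * (u x + 1) ^ ((q + 1) / (p + 1)) := by
    refine (hlc u v h x h1 h2).trans ?_
    rw [add_mul]
    refine add_le_add (mul_le_mul_of_nonneg_left
      (Real.rpow_le_rpow hu (by linarith) (by positivity)) hl)
      (le_mul_of_one_le_right hC (Real.one_le_rpow (by linarith) (by positivity)))
  have hvp := Real.rpow_le_rpow (h.posV x).le hv (by linarith : (0 : ℝ) ≤ p + 1)
  rw [Real.mul_rpow (by positivity) (by positivity), ← Real.rpow_mul (by linarith),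
    div_mul_cancel₀ _ (by linarith : p + 1 ≠ 0)] at hvp
  have hup : u x ^ (q + 1) ≤ (u x + 1) ^ (q + 1) :=
    Real.rpow_le_rpow hu (by linarith) (by linarith)
  rw [energy, add_mul, one_mul]
  linarith

end Vale.Agent.P100.SoupletAB
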