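import Mathlib
import Vale.Agent.P100.Pohozaev

/-!
# Rellich-Pohozaev identity with two homogeneous weights

For `-Δu = W₁ f(v)`, `-Δv = W₂ g(u)` on an open set, `x ⬝ ∇Wᵢ = kᵢ Wᵢ`, `F' = f`, `G' = g` and
`a₁ + a₂ = n - 2`: `∫ φ (W₁ ((n + k₁) F(v) - a₁ v f(v)) + W₂ ((n + k₂) G(u) - a₂ u g(u)))` equals
`- ∫ ∇φ ⬝ X`, with the field of `Pohozaev` in which `F(v)`, `G(u)` carry the weights.
-/

open MeasureTheory Filter Set Topology

namespace Vale.Agent.P100.SoupletAB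

variable {E : Type*} [NormedAddCommGroup E] [NormedSpace ℝ E] [FiniteDimensional ℝ E]
  [MeasurableSpace E] [BorelSpace E] {μ : Measure E} [μ.IsAddHaarMeasure]
  {ι : Type*} [Fintype ι] {Ω : Set E}

/-- The vector field, by components. -/
noncomputable def pohoFieldAB (e : ι → E) (co : ι → E →L[ℝ] ℝ) (u v W₁ W₂ : E → ℝ) (F G : ℝ → ℝ)
    (a₁ a₂ : ℝ) (i : ι) (x : E) : ℝ :=
  (∑ j, co j x * fderiv ℝ v x (e j)) * fderiv ℝ u x (e i) +
    (∑ j, co j x * fderiv ℝ u x (e j)) * fderiv ℝ v x (e i) -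
    co i x * (∑ j, fderiv ℝ u x (e j) * fderiv ℝ v x (e j)) +
    a₁ * (v x * fderiv ℝ u x (e i)) + a₂ * (u x * fderiv ℝ v x (e i)) +
    co i x * (W₁ x * F (v x) + W₂ x * G (u x))

theorem pohozaev_weights (hΩ : IsOpen Ω) (e : ι → E) (co : ι → E →L[ℝ] ℝ) [DecidableEq ι]
    (hco : ∀ i j, co j (e i) = if i = j then 1 else 0) {φ : E → ℝ} {C : NNReal}
    (hφ : LipschitzWith C φ) (hφc : HasCompactSupport φ) (hsub : tsupport φ ⊆ Ω)
    {u v W₁ W₂ : E → ℝ} (hu : ContDiffOn ℝ 2 u Ω) (hv : ContDiffOn ℝ 2 v Ω) {k₁ k₂ : ℝ}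
    (hW₁ : ContDiffOn ℝ 1 W₁ Ω) (hW₁k : ∀ x ∈ Ω, ∑ j, co j x * fderiv ℝ W₁ x (e j) = k₁ * W₁ x)
    (hW₂ : ContDiffOn ℝ 1 W₂ Ω) (hW₂k : ∀ x ∈ Ω, ∑ j, co j x * fderiv ℝ W₂ x (e j) = k₂ * W₂ x)
    {F G f g : ℝ → ℝ} {su sv : Set ℝ} (hus : ∀ x ∈ Ω, u x ∈ su) (hvs : ∀ x ∈ Ω, v x ∈ sv)
    (hF : ContDiffOn ℝ 1 F sv) (hG : ContDiffOn ℝ 1 G su)
    (hF' : ∀ t ∈ sv, HasDerivAt F (f t) t) (hG' : ∀ t ∈ su, HasDerivAt G (g t) t)
    (equ : ∀ x ∈ Ω, ∑ i, fderiv ℝ (fderiv ℝ u) x (e i) (e i) = -(W₁ x * f (v x)))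
    (eqv : ∀ x ∈ Ω, ∑ i, fderiv ℝ (fderiv ℝ v) x (e i) (e i) = -(W₂ x * g (u x)))
    (a₁ a₂ : ℝ) (ha : a₁ + a₂ = (Fintype.card ι : ℝ) - 2) :
    ∫ x, φ x * (W₁ x * (((Fintype.card ι : ℝ) + k₁) * F (v x) - a₁ * (v x * f (v x))) +
        W₂ x * (((Fintype.card ι : ℝ) + k₂) * G (u x) - a₂ * (u x * g (u x)))) ∂μ =
      -∫ x, ∑ i, lineDeriv ℝ φ x (e i) * pohoFieldAB e co u v W₁ W₂ F G a₁ a₂ i x ∂μ := by
  have hdu : ∀ w, ContDiffOn ℝ 1 (fun y => fderiv ℝ u y w) Ω := fun w =>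
    (hu.fderiv_of_isOpen hΩ (by norm_num)).clm_apply contDiffOn_const
  have hdv : ∀ w, ContDiffOn ℝ 1 (fun y => fderiv ℝ v y w) Ω := fun w =>
    (hv.fderiv_of_isOpen hΩ (by norm_num)).clm_apply contDiffOn_const
  have hX : ∀ i, ContDiffOn ℝ 1 (pohoFieldAB e co u v W₁ W₂ F G a₁ a₂ i) Ω := by
    intro i
    have hc : ∀ j, ContDiffOn ℝ 1 (fun y => co j y) Ω := fun j => (co j).contDiff.contDiffOn
    have h1 : ContDiffOn ℝ 1 (fun y => F (v y)) Ω := hF.comp (hv.of_le one_le_two) hvs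
    have h2 : ContDiffOn ℝ 1 (fun y => G (u y)) Ω := hG.comp (hu.of_le one_le_two) hus
    unfold pohoFieldAB
    exact (((((ContDiffOn.sum fun j _ => (hc j).mul (hdv _)).mul (hdu _)).add
      ((ContDiffOn.sum fun j _ => (hc j).mul (hdu _)).mul (hdv _))).sub
      ((hc i).mul (ContDiffOn.sum fun j _ => (hdu _).mul (hdv _)))).add
      (contDiffOn_const.mul ((hv.of_le one_le_two).mul (hdu _)))).add
      (contDiffOn_const.mul ((hu.of_le one_le_two).mul (hdv _))) |>.add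
      ((hc i).mul ((hW₁.mul h1).add (hW₂.mul h2)))
  rw [← div_lip hΩ e hφ hφc hsub _ hX]
  congr 1; ext x
  by_cases hxt : x ∈ tsupport φ
  swap
  · simp [image_eq_zero_of_notMem_tsupport hxt]
  congr 1
  have hx : x ∈ Ω := hsub hxt
  have hn := hΩ.mem_nhds hx
  have D2 : ∀ {w : E → ℝ}, ContDiffOn ℝ 2 w Ω → ∀ a b : E,
      HasFDerivAt (fun y => fderiv ℝ w y a)
        ((ContinuousLinearMap.apply ℝ ℝ a).comp (fderiv ℝ (fderiv ℝ w) x)) x := by
    intro w hw a _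
    exact (ContinuousLinearMap.apply ℝ ℝ a).hasFDerivAt.comp x
      (((hw.contDiffAt hn).fderiv_right (m := 1) (by norm_num)).differentiableAt
        one_ne_zero).hasFDerivAt
  have du : HasFDerivAt u (fderiv ℝ u x) x :=
    ((hu.contDiffAt hn).differentiableAt two_ne_zero).hasFDerivAt
  have dv : HasFDerivAt v (fderiv ℝ v x) x :=
    ((hv.contDiffAt hn).differentiableAt two_ne_zero).hasFDerivAt
  have dW₁ : HasFDerivAt W₁ (fderiv ℝ W₁ x) x :=
    ((hW₁.contDiffAt hn).differentiableAt one_ne_zero).hasFDerivAt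
  have dW₂ : HasFDerivAt W₂ (fderiv ℝ W₂ x) x :=
    ((hW₂.contDiffAt hn).differentiableAt one_ne_zero).hasFDerivAt
  have hXd : ∀ i, fderiv ℝ (pohoFieldAB e co u v W₁ W₂ F G a₁ a₂ i) x (e i) =
      (fderiv ℝ v x (e i) + ∑ j, co j x * fderiv ℝ (fderiv ℝ v) x (e i) (e j)) *
          fderiv ℝ u x (e i) +
        (∑ j, co j x * fderiv ℝ v x (e j)) * fderiv ℝ (fderiv ℝ u) x (e i) (e i) +
        ((fderiv ℝ u x (e i) + ∑ j, co j x * fderiv ℝ (fderiv ℝ u) x (e i) (e j)) *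
          fderiv ℝ v x (e i) +
        (∑ j, co j x * fderiv ℝ u x (e j)) * fderiv ℝ (fderiv ℝ v) x (e i) (e i)) -
        ((∑ j, fderiv ℝ u x (e j) * fderiv ℝ v x (e j)) +
          co i x * ∑ j, (fderiv ℝ (fderiv ℝ u) x (e i) (e j) * fderiv ℝ v x (e j) +
            fderiv ℝ u x (e j) * fderiv ℝ (fderiv ℝ v) x (e i) (e j))) +
        a₁ * (fderiv ℝ v x (e i) * fderiv ℝ u x (e i) +
          v x * fderiv ℝ (fderiv ℝ u) x (e i) (e i)) +
        a₂ * (fderiv ℝ u x (e i) * fderiv ℝ v x (e i) +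
          u x * fderiv ℝ (fderiv ℝ v) x (e i) (e i)) +
        (W₁ x * F (v x) + W₂ x * G (u x) +
          (co i x * fderiv ℝ W₁ x (e i) * F (v x) + co i x * fderiv ℝ W₂ x (e i) * G (u x) +
          co i x * (W₁ x * (f (v x) * fderiv ℝ v x (e i)) +
            W₂ x * (g (u x) * fderiv ℝ u x (e i))))) := by
    intro i
    have hc : ∀ j, HasFDerivAt (fun y => co j y) (co j) x := fun j => (co j).hasFDerivAt
    have hsv' : HasFDerivAt (fun y => ∑ j, co j y * fderiv ℝ v y (e j)) _ x :=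
      HasFDerivAt.fun_sum fun j (_ : j ∈ Finset.univ) => (hc j).mul (D2 hv (e j) (e j))
    have hsu' : HasFDerivAt (fun y => ∑ j, co j y * fderiv ℝ u y (e j)) _ x :=
      HasFDerivAt.fun_sum fun j (_ : j ∈ Finset.univ) => (hc j).mul (D2 hu (e j) (e j))
    have hs : HasFDerivAt (fun y => ∑ j, fderiv ℝ u y (e j) * fderiv ℝ v y (e j)) _ x :=
      HasFDerivAt.fun_sum fun j (_ : j ∈ Finset.univ) =>
        (D2 hu (e j) (e j)).mul (D2 hv (e j) (e j))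
    have hall := (((((hsv'.mul (D2 hu (e i) (e i))).add (hsu'.mul (D2 hv (e i) (e i)))).sub
      ((hc i).mul hs)).add ((dv.mul (D2 hu (e i) (e i))).const_mul a₁)).add
      ((du.mul (D2 hv (e i) (e i))).const_mul a₂)).add
      ((hc i).mul ((dW₁.mul ((hF' _ (hvs x hx)).comp_hasFDerivAt x dv)).add
        (dW₂.mul ((hG' _ (hus x hx)).comp_hasFDerivAt x du))))
    rw [show fderiv ℝ (pohoFieldAB e co u v W₁ W₂ F G a₁ a₂ i) x = _ from hall.fderiv]
    simp only [add_apply, sub_apply, FunLike.coe_smul, Pi.smul_apply, Pi.add_apply, Pi.mul_apply,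
      smul_eq_mul, FunLike.coe_sum, Finset.sum_apply, ContinuousLinearMap.coe_comp,
      Function.comp_apply, ContinuousLinearMap.apply_apply, hco, Finset.sum_add_distrib,
      mul_ite, mul_one, mul_zero, Finset.sum_ite_eq, Finset.mem_univ, if_true]
    simp only [mul_comm (fderiv ℝ v x (e _)) (fderiv ℝ (fderiv ℝ u) x (e i) (e _))]
    ring
  have sy : ∀ {w : E → ℝ}, ContDiffOn ℝ 2 w Ω → ∀ a b : E,
      fderiv ℝ (fderiv ℝ w) x a b = fderiv ℝ (fderiv ℝ w) x b a := fun hw a b =>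
    (hw.contDiffAt hn).isSymmSndFDerivAt (by simp) a b
  symm
  simp only [hXd, Finset.sum_add_distrib, Finset.sum_sub_distrib, ← Finset.mul_sum, equ x hx,
    eqv x hx, Finset.sum_const, Finset.card_univ, nsmul_eq_mul]
  have t1 : ∑ i, (fderiv ℝ v x (e i) + ∑ j, co j x * fderiv ℝ (fderiv ℝ v) x (e i) (e j)) *
      fderiv ℝ u x (e i) = (∑ i, fderiv ℝ u x (e i) * fderiv ℝ v x (e i)) +
      ∑ i, co i x * ∑ j, fderiv ℝ u x (e j) * fderiv ℝ (fderiv ℝ v) x (e i) (e j) := by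
    simp only [add_mul, Finset.sum_add_distrib, Finset.mul_sum, Finset.sum_mul]
    congr 1
    · exact Finset.sum_congr rfl fun i _ => mul_comm _ _
    · rw [Finset.sum_comm]
      exact Finset.sum_congr rfl fun i _ => Finset.sum_congr rfl fun j _ => by
        rw [sy hv]; ring
  have t2 : ∑ i, (fderiv ℝ u x (e i) + ∑ j, co j x * fderiv ℝ (fderiv ℝ u) x (e i) (e j)) *
      fderiv ℝ v x (e i) = (∑ i, fderiv ℝ u x (e i) * fderiv ℝ v x (e i)) +
      ∑ i, co i x * ∑ j, fderiv ℝ (fderiv ℝ u) x (e i) (e j) * fderiv ℝ v x (e j) := by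
    simp only [add_mul, Finset.sum_add_distrib, Finset.mul_sum, Finset.sum_mul]
    congr 1
    rw [Finset.sum_comm]
    exact Finset.sum_congr rfl fun i _ => Finset.sum_congr rfl fun j _ => by
      rw [sy hu]; ring
  have t3 : ∑ i, co i x * (W₁ x * (f (v x) * fderiv ℝ v x (e i)) +
        W₂ x * (g (u x) * fderiv ℝ u x (e i))) =
      W₁ x * (f (v x) * (∑ j, co j x * fderiv ℝ v x (e j))) +
        W₂ x * (g (u x) * ∑ j, co j x * fderiv ℝ u x (e j)) := by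
    simp only [mul_add, Finset.sum_add_distrib, Finset.mul_sum]
    congr 1 <;> exact Finset.sum_congr rfl fun i _ => by ring
  have t4 : ∑ i, fderiv ℝ v x (e i) * fderiv ℝ u x (e i) =
      ∑ i, fderiv ℝ u x (e i) * fderiv ℝ v x (e i) :=
    Finset.sum_congr rfl fun i _ => mul_comm _ _
  have t5 : ∑ i, co i x * fderiv ℝ W₁ x (e i) * F (v x) = k₁ * W₁ x * F (v x) := by
    rw [← Finset.sum_mul, hW₁k x hx]
  have t6 : ∑ i, co i x * fderiv ℝ W₂ x (e i) * G (u x) = k₂ * W₂ x * G (u x) := by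
    rw [← Finset.sum_mul, hW₂k x hx]
  rw [t1, t2, t3, t4, t5, t6]
  simp only [mul_add, Finset.sum_add_distrib]
  linear_combination (∑ i, fderiv ℝ u x (e i) * fderiv ℝ v x (e i)) * ha

end Vale.Agent.P100.SoupletAB
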