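import Mathlib
import Vale.Agent.P100.UnitBound
import Vale.Agent.P100.Compare
import Vale.Agent.P100.SoupletW.Local
import Vale.Agent.P100.SoupletW.Radii
import Vale.Agent.P100.SoupletAB.Defs
import Vale.Agent.P100.SoupletAB.Pohozaev

/-!
# The weighted energy inside good radii, two weights

Rellich-Pohozaev on the punctured ball: the flux through small spheres vanishes, as
`‖Du(x)‖ ≤ C / ‖x‖` near the origin and both weights exceed `-2`.
-/

open MeasureTheory Filter Set Metric Topology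
open scoped ENNReal NNReal

namespace Vale.Agent.P100.SoupletAB

open SoupletW (wRad contDiffOn_wRad euler_wRad fderiv_near_zero)

variable {n : ℕ} {A B p q : ℝ}

/-- The field of the two-weight identity for the Hénon–Lane–Emden nonlinearities. -/
noncomputable def fieldAB (A B p q : ℝ) (u v : EuclideanSpace ℝ (Fin n) → ℝ) (a₁ a₂ : ℝ) (i : Fin n)
    (x : EuclideanSpace ℝ (Fin n)) : ℝ :=
  pohoFieldAB (fun i => EuclideanSpace.single i (1 : ℝ)) (fun i => EuclideanSpace.proj i) u v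
    (wRad A) (wRad B) (fun t => t ^ (p + 1) / (p + 1)) (fun t => t ^ (q + 1) / (q + 1)) a₁ a₂ i x

theorem sum_fieldAB_le {u v : EuclideanSpace ℝ (Fin n) → ℝ} (hp : 0 < p) (hq : 0 < q)
    {x : EuclideanSpace ℝ (Fin n)} (hu : 0 < u x) (hv : 0 < v x) (a₁ a₂ : ℝ) :
    ∑ i : Fin n, |fieldAB A B p q u v a₁ a₂ i x| ≤
      n * (3 * n * ‖x‖ * (‖fderiv ℝ u x‖ * ‖fderiv ℝ v x‖) + |a₁| * (v x * ‖fderiv ℝ u x‖) +
        |a₂| * (u x * ‖fderiv ℝ v x‖) + ‖x‖ * energy p q u v x) +
      n * ((|wRad A x - 1| + |wRad B x - 1|) * (‖x‖ * energy p q u v x)) := by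
  set F := (v x) ^ (p + 1) / (p + 1) with hF
  set G := (u x) ^ (q + 1) / (q + 1) with hG
  have hF0 : 0 ≤ F := by positivity
  have hG0 : 0 ≤ G := by positivity
  have hFe : F ≤ energy p q u v x := by
    rw [hF, energy]
    exact (div_le_self (by positivity) (by linarith)).trans (le_add_of_nonneg_left (by positivity))
  have hGe : G ≤ energy p q u v x := by
    rw [hG, energy]
    exact (div_le_self (by positivity) (by linarith)).trans (le_add_of_nonneg_right (by positivity))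
  refine le_trans (Finset.sum_le_sum (g := fun i => |pohoField
      (fun i => EuclideanSpace.single i (1 : ℝ)) (fun i => EuclideanSpace.proj i) u v
      (fun t => t ^ (p + 1) / (p + 1)) (fun t => t ^ (q + 1) / (q + 1)) a₁ a₂ i x| +
      (|wRad A x - 1| + |wRad B x - 1|) * (‖x‖ * energy p q u v x)) fun i _ => ?_) ?_
  · have e : fieldAB A B p q u v a₁ a₂ i x = pohoField (fun i => EuclideanSpace.single i (1 : ℝ))
        (fun i => EuclideanSpace.proj i) u v (fun t => t ^ (p + 1) / (p + 1))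
        (fun t => t ^ (q + 1) / (q + 1)) a₁ a₂ i x +
        EuclideanSpace.proj (𝕜 := ℝ) i x * ((wRad A x - 1) * F + (wRad B x - 1) * G) := by
      simp only [fieldAB, pohoFieldAB, pohoField, hF, hG]
      ring
    rw [e]
    refine (abs_add_le _ _).trans (add_le_add le_rfl ?_)
    rw [abs_mul, mul_left_comm]
    refine mul_le_mul (norm_coord_le i x) ?_ (abs_nonneg _) (norm_nonneg _)
    refine (abs_add_le _ _).trans ?_
    rw [abs_mul, abs_mul, abs_of_nonneg hF0, abs_of_nonneg hG0, add_mul]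
    exact add_le_add (mul_le_mul_of_nonneg_left hFe (abs_nonneg _))
      (mul_le_mul_of_nonneg_left hGe (abs_nonneg _))
  · rw [Finset.sum_add_distrib]
    refine add_le_add (sum_pohoField_le hp hq hu hv a₁ a₂) (le_of_eq ?_)
    simp

theorem annulus_boundAB {u v : EuclideanSpace ℝ (Fin n) → ℝ} (h : IsSolAB A B p q u v)
    (hp : 0 < p) (hq : 0 < q) (a₁ a₂ : ℝ) {x : EuclideanSpace ℝ (Fin n)} (hx1 : 1 ≤ ‖x‖)
    (hx : ‖x‖ ≤ 2) :
    ∑ i : Fin n, |fieldAB A B p q u v a₁ a₂ i x| ≤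
      n * (6 * n + |a₁| + |a₂| + 2 * (4 ^ |A| + 4 ^ |B|) + 6) * sphereDens p q u v x := by
  refine (sum_fieldAB_le hp hq (h.posU x) (h.posV x) a₁ a₂).trans ?_
  rw [mul_assoc (n : ℝ) (6 * n + |a₁| + |a₂| + 2 * (4 ^ |A| + 4 ^ |B|) + 6), ← mul_add]
  refine mul_le_mul_of_nonneg_left ?_ (Nat.cast_nonneg n)
  have hn0 : (0 : ℝ) ≤ n := Nat.cast_nonneg n
  have := abs_nonneg a₁
  have := abs_nonneg a₂
  set L := 6 * (n : ℝ) + |a₁| + |a₂| + 2 * ((4 : ℝ) ^ |A| + 4 ^ |B|) + 6
  have hAB := mul_nonneg (norm_nonneg (fderiv ℝ u x)) (norm_nonneg (fderiv ℝ v x))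
  have hva := mul_nonneg (h.posV x).le (norm_nonneg (fderiv ℝ u x))
  have hub := mul_nonneg (h.posU x).le (norm_nonneg (fderiv ℝ v x))
  have he0 := h.energy_nonneg x
  have one : ∀ C : ℝ, |wRad C x - 1| ≤ 4 ^ |C| + 1 := fun C => by
    have : wRad C x ≤ 4 ^ |C| := (rpow_ann_bounds C (by linarith) (by linarith)).1
    have : 0 ≤ wRad C x := Real.rpow_nonneg (norm_nonneg x) _
    have : (0 : ℝ) ≤ 4 ^ |C| := by positivity
    rw [abs_le]; constructor <;> linarith
  have hW : |wRad A x - 1| + |wRad B x - 1| ≤ 4 ^ |A| + 4 ^ |B| + 2 := by linarith [one A, one B]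
  have cA : (0 : ℝ) ≤ 4 ^ |A| := by positivity
  have cB : (0 : ℝ) ≤ 4 ^ |B| := by positivity
  have k0 := mul_le_mul_of_nonneg_right hW (mul_nonneg (norm_nonneg x) he0)
  have k1 : 3 * n * ‖x‖ ≤ L := by
    have := mul_le_mul_of_nonneg_left hx (by linarith : (0 : ℝ) ≤ 3 * n)
    linarith
  have k2 : |a₁| ≤ L := by linarith
  have k3 : |a₂| ≤ L := by linarith
  have k4 : (4 ^ |A| + 4 ^ |B| + 3) * ‖x‖ ≤ L := by
    have := mul_le_mul_of_nonneg_left hx (by linarith : (0 : ℝ) ≤ 4 ^ |A| + 4 ^ |B| + 3)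
    linarith
  rw [sphereDens]
  linarith [mul_le_mul_of_nonneg_right k1 hAB, mul_le_mul_of_nonneg_right k2 hva,
    mul_le_mul_of_nonneg_right k3 hub, mul_le_mul_of_nonneg_right k4 he0]

theorem layer_boundAB {u v : EuclideanSpace ℝ (Fin n) → ℝ} (h : IsSolAB A B p q u v) (hA : -2 < A)
    (hB : -2 < B) (hp : 0 < p) (hq : 0 < q) (a₁ a₂ : ℝ) {x : EuclideanSpace ℝ (Fin n)}
    {ε G Mu Mv Me : ℝ} (hε : 0 < ε) (hε2 : 2 * ε < 1) (hx0 : ε ≤ ‖x‖) (hx : ‖x‖ ≤ 2 * ε)
    (hgu : ‖fderiv ℝ u x‖ * ‖x‖ ≤ G) (hgv : ‖fderiv ℝ v x‖ * ‖x‖ ≤ G)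
    (hu : u x ≤ Mu) (hv : v x ≤ Mv) (he : energy p q u v x ≤ Me) :
    ε⁻¹ * ∑ i : Fin n, |fieldAB A B p q u v a₁ a₂ i x| ≤
      n * (6 * n * G ^ 2 + |a₁| * (Mv * G) + |a₂| * (Mu * G) + 6 * Me) * (ε⁻¹) ^ 2 := by
  have hxp : 0 < ‖x‖ := hε.trans_le hx0
  set α := ‖fderiv ℝ u x‖
  set β := ‖fderiv ℝ v x‖
  have hα0 : 0 ≤ α := norm_nonneg _
  have hβ0 : 0 ≤ β := norm_nonneg _
  have hG0 : 0 ≤ G := (mul_nonneg hα0 (norm_nonneg x)).trans hgu
  have hα : α ≤ G * ε⁻¹ := by
    rw [← div_eq_mul_inv, le_div_iff₀ hε]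
    exact (mul_le_mul_of_nonneg_left hx0 hα0).trans hgu
  have hβ : β ≤ G * ε⁻¹ := by
    rw [← div_eq_mul_inv, le_div_iff₀ hε]
    exact (mul_le_mul_of_nonneg_left hx0 hβ0).trans hgv
  have he0 := h.energy_nonneg x
  have hMu0 : 0 ≤ Mu := (h.posU x).le.trans hu
  have hMv0 : 0 ≤ Mv := (h.posV x).le.trans hv
  have hxε : ε⁻¹ * ‖x‖ ≤ 2 := by rw [inv_mul_eq_div, div_le_iff₀ hε]; exact hx
  have h1 : (1 : ℝ) ≤ (ε⁻¹) ^ 2 := one_le_pow₀ ((one_le_inv₀ hε).2 (by linarith))
  have one : ∀ C : ℝ, -2 < C → |wRad C x - 1| ≤ (ε⁻¹) ^ 2 := fun C hC => by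
    have a : wRad C x ≤ (ε⁻¹) ^ 2 := by
      rcases le_total C 0 with h0 | h0
      · refine (Real.rpow_le_rpow_of_nonpos hε hx0 h0).trans ?_
        refine (Real.rpow_le_rpow_of_exponent_ge hε (by linarith) hC.le).trans (le_of_eq ?_)
        rw [Real.rpow_neg hε.le, Real.rpow_two, ← inv_pow]
      · exact (Real.rpow_le_one (norm_nonneg x) (by linarith) h0).trans h1
    have : 0 ≤ wRad C x := Real.rpow_nonneg (norm_nonneg x) _
    rw [abs_le]; constructor <;> linarith
  have hW : |wRad A x - 1| + |wRad B x - 1| ≤ 2 * (ε⁻¹) ^ 2 := by linarith [one A hA, one B hB]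
  have t1 : 3 * n * (ε⁻¹ * ‖x‖) * (α * β) ≤ 6 * n * G ^ 2 * (ε⁻¹) ^ 2 := by
    calc _ ≤ 3 * (n : ℝ) * 2 * ((G * ε⁻¹) * (G * ε⁻¹)) :=
          mul_le_mul (mul_le_mul_of_nonneg_left hxε (by positivity))
            (mul_le_mul hα hβ hβ0 (by positivity)) (by positivity) (by positivity)
      _ = _ := by ring
  have t2 : |a₁| * (v x * (ε⁻¹ * α)) ≤ |a₁| * (Mv * G) * (ε⁻¹) ^ 2 := by
    calc _ ≤ |a₁| * (Mv * (ε⁻¹ * (G * ε⁻¹))) := mul_le_mul_of_nonneg_left (mul_le_mul hv
          (mul_le_mul_of_nonneg_left hα (by positivity)) (by positivity) hMv0) (abs_nonneg _)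
      _ = _ := by ring
  have t3 : |a₂| * (u x * (ε⁻¹ * β)) ≤ |a₂| * (Mu * G) * (ε⁻¹) ^ 2 := by
    calc _ ≤ |a₂| * (Mu * (ε⁻¹ * (G * ε⁻¹))) := mul_le_mul_of_nonneg_left (mul_le_mul hu
          (mul_le_mul_of_nonneg_left hβ (by positivity)) (by positivity) hMu0) (abs_nonneg _)
      _ = _ := by ring
  have t4 : ε⁻¹ * ‖x‖ * energy p q u v x ≤ 2 * Me :=
    mul_le_mul hxε he he0 zero_le_two
  have t5 : (|wRad A x - 1| + |wRad B x - 1|) * (ε⁻¹ * ‖x‖ * energy p q u v x) ≤
      2 * (ε⁻¹) ^ 2 * (2 * Me) :=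
    mul_le_mul hW t4 (by positivity) (by positivity)
  have t6 : 2 * Me ≤ (ε⁻¹) ^ 2 * (2 * Me) :=
    le_mul_of_one_le_left (by linarith [he0.trans he]) h1
  refine (mul_le_mul_of_nonneg_left (sum_fieldAB_le hp hq (h.posU x) (h.posV x) a₁ a₂)
    (inv_nonneg.2 hε.le)).trans ?_
  calc ε⁻¹ * (n * (3 * n * ‖x‖ * (α * β) + |a₁| * (v x * α) + |a₂| * (u x * β) +
        ‖x‖ * energy p q u v x) + n * ((|wRad A x - 1| + |wRad B x - 1|) * (‖x‖ * energy p q u v x)))
      = n * (3 * n * (ε⁻¹ * ‖x‖) * (α * β) + |a₁| * (v x * (ε⁻¹ * α)) +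
          |a₂| * (u x * (ε⁻¹ * β)) + ε⁻¹ * ‖x‖ * energy p q u v x +
          (|wRad A x - 1| + |wRad B x - 1|) * (ε⁻¹ * ‖x‖ * energy p q u v x)) := by ring
    _ ≤ n * (6 * n * G ^ 2 * (ε⁻¹) ^ 2 + |a₁| * (Mv * G) * (ε⁻¹) ^ 2 +
          |a₂| * (Mu * G) * (ε⁻¹) ^ 2 + 6 * Me * (ε⁻¹) ^ 2) :=
        mul_le_mul_of_nonneg_left (by linarith) (Nat.cast_nonneg n)
    _ = _ := by ring

/-- half the subcritical margin -/
noncomputable def marginAB (n : ℕ) (A B p q : ℝ) : ℝ :=
  (((n : ℝ) + A) / (p + 1) + ((n : ℝ) + B) / (q + 1) - ((n : ℝ) - 2)) / 2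

/-- constant in the ball bound -/
noncomputable def pohoConstAB (n : ℕ) (A B p q : ℝ) : ℝ :=
  n * (6 * n + |((n : ℝ) + A) / (p + 1) - marginAB n A B p q| +
    |((n : ℝ) + B) / (q + 1) - marginAB n A B p q| + 2 * (4 ^ |A| + 4 ^ |B|) + 6)

/-- Bounds near the origin for one solution. -/
theorem origin_bounds (hn : 3 ≤ n) (hA : -2 < A) (hB : -2 < B) (hp : 0 < p) (hq : 0 < q)
    {u v : EuclideanSpace ℝ (Fin n) → ℝ} (h : IsSolAB A B p q u v) :
    ∃ G : ℝ, 0 ≤ G ∧ ∀ x, x ≠ 0 → ‖x‖ ≤ 1 →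
      ‖fderiv ℝ u x‖ * ‖x‖ ≤ G ∧ ‖fderiv ℝ v x‖ * ‖x‖ ≤ G := by
  obtain ⟨C, hC, hg⟩ := fderiv_near_zero hn
  have one : ∀ {A' B' p' q' : ℝ} {u' v' : EuclideanSpace ℝ (Fin n) → ℝ}, -2 < A' → 0 < p' →
      IsSolAB A' B' p' q' u' v' → ∃ G : ℝ, 0 ≤ G ∧ ∀ x, x ≠ 0 → ‖x‖ ≤ 1 →
        ‖fderiv ℝ u' x‖ * ‖x‖ ≤ G := by
    intro A' B' p' q' u' v' hA' hp' h'
    obtain ⟨Mu, hMu0, hMu⟩ := exists_bound h'.contU 2
    obtain ⟨Mv, hMv0, hMv⟩ := exists_bound h'.contV 2
    refine ⟨C * (Mu + 2 ^ (A' + 2) * Mv ^ p'), by positivity, fun x hx hx1 => hg u'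
      (fun y => ‖y‖ ^ A' * v' y ^ p') (fun y => (h'.posU y).le)
      (fun y => mul_nonneg (by positivity) (Real.rpow_nonneg (h'.posV y).le _))
      (((contDiffOn_wRad A').continuousOn).mul
        (h'.contV.rpow_const fun y => Or.inl (h'.posV y).ne').continuousOn)
      h'.smoothU h'.eqU Mu _ hMu0 (by positivity) hMu (fun y hy hy2 => ?_) x hx hx1⟩
    have hy0 : 0 < ‖y‖ := norm_pos_iff.2 hy
    have e : ‖y‖ ^ A' * ‖y‖ ^ 2 = ‖y‖ ^ (A' + 2) := by rw [Real.rpow_add hy0, Real.rpow_two]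
    calc ‖y‖ ^ A' * v' y ^ p' * ‖y‖ ^ 2 = ‖y‖ ^ A' * ‖y‖ ^ 2 * v' y ^ p' := by ring
      _ ≤ _ := by
        rw [e]
        exact mul_le_mul (Real.rpow_le_rpow hy0.le hy2 (by linarith))
          (Real.rpow_le_rpow (h'.posV y).le (hMv y hy2) hp'.le)
          (Real.rpow_nonneg (h'.posV y).le _) (by positivity)
  obtain ⟨G₁, hG₁, h1⟩ := one hA hp h
  obtain ⟨G₂, hG₂, h2⟩ := one hB hq h.swap
  exact ⟨G₁ + G₂, by positivity, fun x hx hx1 =>
    ⟨(h1 x hx hx1).trans (by linarith), (h2 x hx hx1).trans (by linarith)⟩⟩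

/-- A bound on a set of spheres controls the energy on the ball inside them. -/
theorem ball_bound_of_good_radiiAB {u v : (EuclideanSpace ℝ (Fin n)) → ℝ} (hn : 3 ≤ n) (hp : 0 < p) (hq : 0 < q)
    (hA : -2 < A) (hB : -2 < B)
    (hsub : (n : ℝ) - 2 < ((n : ℝ) + A) / (p + 1) + ((n : ℝ) + B) / (q + 1))
    (h : IsSolAB A B p q u v)
    {K : Set ℝ} (hK : IsCompact K) {r : ℝ} (hr1 : 1 ≤ r) (hK' : K ⊆ Icc r 2)
    {D : ℝ} (hD0 : 0 ≤ D)
    (hD : ∀ r ∈ K, slice volume (fun x => ENNReal.ofReal (sphereDens p q u v x)) r ≤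
      ENNReal.ofReal D) :
    volume.real K * ∫ x in closedBall (0 : (EuclideanSpace ℝ (Fin n))) r, energyAB A B p q u v x ≤
      pohoConstAB n A B p q * 2 ^ (n - 1) / marginAB n A B p q * D := by
  have hK2 : K ⊆ Icc 1 2 := hK'.trans (Icc_subset_Icc hr1 le_rfl)
  classical
  set m := marginAB n A B p q with hm
  have hm0 : 0 < m := by rw [hm, marginAB]; linarith
  set a₁ := ((n : ℝ) + A) / (p + 1) - m with ha₁
  set a₂ := ((n : ℝ) + B) / (q + 1) - m with ha₂
  have ha : a₁ + a₂ = (Fintype.card (Fin n) : ℝ) - 2 := by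
    rw [Fintype.card_fin, ha₁, ha₂, hm, marginAB]; ring
  set AA := pohoConstAB n A B p q with hAA
  have hA0 : 0 ≤ AA := by rw [hAA, pohoConstAB]; positivity
  have : Nontrivial (EuclideanSpace ℝ (Fin n)) := Module.nontrivial_of_finrank_pos (R := ℝ)
    (by rw [finrank_euclideanSpace_fin]; omega)
  -- bounds on the unit ball
  obtain ⟨Mu, hMu⟩ := (isCompact_closedBall (0 : (EuclideanSpace ℝ (Fin n))) 1).exists_bound_of_continuousOn
    h.contU.continuousOn
  obtain ⟨Mv, hMv⟩ := (isCompact_closedBall (0 : (EuclideanSpace ℝ (Fin n))) 1).exists_bound_of_continuousOn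
    h.contV.continuousOn
  obtain ⟨Me, hMe⟩ := (isCompact_closedBall (0 : (EuclideanSpace ℝ (Fin n))) 1).exists_bound_of_continuousOn
    h.continuous_energy.continuousOn
  have hMu0 : 0 ≤ Mu := (norm_nonneg _).trans (hMu 0 (by simp))
  have hMv0 : 0 ≤ Mv := (norm_nonneg _).trans (hMv 0 (by simp))
  have hMe0 : 0 ≤ Me := (norm_nonneg _).trans (hMe 0 (by simp))
  obtain ⟨Gd, hGd0, hGd⟩ := origin_bounds hn hA hB hp hq h
  set c₁ : ℝ := n * (6 * n * Gd ^ 2 + |a₁| * (Mv * Gd) + |a₂| * (Mu * Gd) + 6 * Me) with hc₁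
  have hc₁0 : 0 ≤ c₁ := by positivity
  set T : Set (EuclideanSpace ℝ (Fin n)) := (fun y : (EuclideanSpace ℝ (Fin n)) => ‖y‖) ⁻¹' K with hT
  have hTm : MeasurableSet T := measurable_norm hK.isClosed.measurableSet
  have hTb : T ⊆ closedBall (0 : (EuclideanSpace ℝ (Fin n))) 2 := fun x hx => by simpa using (hK2 hx).2
  have hTc : IsCompact T := (isCompact_closedBall (0 : (EuclideanSpace ℝ (Fin n))) 2).of_isClosed_subset
    (hK.isClosed.preimage continuous_norm) hTb
  have hT0 : T ⊆ ({0}ᶜ : Set (EuclideanSpace ℝ (Fin n))) := fun x hx h0 => by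
    have := (hK2 hx).1
    simp [mem_singleton_iff.1 h0] at this
    linarith
  obtain ⟨hcu, hcv⟩ := h.continuousOn_fderiv
  have hdint : IntegrableOn (sphereDens p q u v) T :=
    ((((h.continuous_energy.continuousOn.add (hcu.mul hcv)).add
      (h.contV.continuousOn.mul hcu)).add (h.contU.continuousOn.mul hcv)).mono
        hT0).integrableOn_compact hTc
  have hdT : ∫ x in T, sphereDens p q u v x ≤ 2 ^ (n - 1) * D := by
    rw [integral_eq_lintegral_of_nonneg_ae (ae_of_all _ fun x => h.sphereDens_nonneg x)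
      hdint.aestronglyMeasurable]
    refine ENNReal.toReal_le_of_le_ofReal (by positivity) ?_
    refine (setLIntegral_norm_mem_le volume (g := fun x => ENNReal.ofReal (sphereDens p q u v x))
      h.measurable_sphereDens.ennreal_ofReal hK.isClosed.measurableSet hK2 hD).trans ?_
    rw [finrank_euclideanSpace_fin, ENNReal.ofReal_mul (by positivity)]
  -- the estimate for a fixed inner layer
  have main : ∀ ε : ℝ, 0 < ε → 2 * ε < 1 →
      m * volume.real K * ((∫ x in closedBall (0 : (EuclideanSpace ℝ (Fin n))) r,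
          energyAB A B p q u v x) -
        ∫ x in closedBall (0 : (EuclideanSpace ℝ (Fin n))) (2 * ε), energyAB A B p q u v x) ≤
      AA * (2 ^ (n - 1) * D) +
        c₁ * (volume.real (closedBall (0 : (EuclideanSpace ℝ (Fin n))) (2 * ε)) * (ε⁻¹) ^ 2) := by
    intro ε hε hε2
    set φ : (EuclideanSpace ℝ (Fin n)) → ℝ := cutK K ε with hφ
    set S : Set (EuclideanSpace ℝ (Fin n)) := closedBall (0 : (EuclideanSpace ℝ (Fin n))) (2 * ε) with hS
    have hSm : MeasurableSet S := isClosed_closedBall.measurableSet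
    have hS1 : S ⊆ closedBall (0 : (EuclideanSpace ℝ (Fin n))) 1 := closedBall_subset_closedBall hε2.le
    have hd : ∀ r : ℝ, r + 1 ≠ 0 → ∀ t ∈ Ioi (0 : ℝ),
        HasDerivAt (fun t => t ^ (r + 1) / (r + 1)) (t ^ r) t := by
      intro r hr t ht
      have := (Real.hasDerivAt_rpow_const (p := r + 1) (Or.inl (ne_of_gt ht))).div_const (r + 1)
      rw [add_sub_cancel_right] at this
      exact this.congr_deriv (by field_simp)
    have hcd : ∀ r : ℝ, ContDiffOn ℝ 1 (fun t : ℝ => t ^ (r + 1) / (r + 1)) (Ioi 0) := fun r =>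
      (contDiffOn_id.rpow_const_of_ne fun t (ht : t ∈ Ioi (0 : ℝ)) => ne_of_gt ht).div_const _
    have key := pohozaev_weights (μ := (volume : Measure (EuclideanSpace ℝ (Fin n))))
      isOpen_compl_singleton
      (fun i : Fin n => EuclideanSpace.single i (1 : ℝ)) (fun i => EuclideanSpace.proj i)
      (fun i j => by simp [PiLp.single_apply, eq_comm])
      (lipschitz_cutK hK hε : LipschitzWith _ φ) (hasCompactSupport_cutK hK2 hε)
      (tsupport_cutK hK2 hε) h.smoothU h.smoothV (contDiffOn_wRad A)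
      (fun x hx => euler_wRad A hx) (contDiffOn_wRad B) (fun x hx => euler_wRad B hx) (fun x _ => h.posU x) (fun x _ => h.posV x)
      (hcd p) (hcd q) (hd p (by linarith)) (hd q (by linarith))
      (fun x hx => by rw [← laplacian_eq_sum_single]; exact h.eqU x hx)
      (fun x hx => by rw [← laplacian_eq_sum_single]; exact h.eqV x hx) a₁ a₂ ha
    have hlhs : ∀ x, φ x * (wRad A x * (((Fintype.card (Fin n) : ℝ) + A) *
          ((v x) ^ (p + 1) / (p + 1)) - a₁ * (v x * (v x) ^ p)) +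
        wRad B x * (((Fintype.card (Fin n) : ℝ) + B) * ((u x) ^ (q + 1) / (q + 1)) -
          a₂ * (u x * (u x) ^ q))) = m * (φ x * energyAB A B p q u v x) := fun x => by
      rw [Fintype.card_fin, ha₁, ha₂, energyAB, wRad, wRad, Real.rpow_add_one (h.posU x).ne',
        Real.rpow_add_one (h.posV x).ne']
      ring
    simp only [← hφ, hlhs, integral_const_mul] at key
    -- lower bound
    have hφc : Continuous φ := (lipschitz_cutK hK hε).continuous
    have hEc : ContinuousOn (energyAB A B p q u v) {0}ᶜ :=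
      ((contDiffOn_wRad B).continuousOn.mul
        (h.contU.rpow_const fun x => Or.inl (h.posU x).ne').continuousOn).add
      ((contDiffOn_wRad A).continuousOn.mul
        (h.contV.rpow_const fun x => Or.inl (h.posV x).ne').continuousOn)
    have hint : Integrable (fun x => φ x * energyAB A B p q u v x) :=
      (Puncture.continuous_of_supported isOpen_compl_singleton (hφc.continuousOn.mul hEc)
        (tsupport_mul_subset_left.trans (tsupport_cutK hK2 hε))).integrable_of_hasCompactSupport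
        (hasCompactSupport_cutK hK2 hε).mul_right
    have hR : IntegrableOn (energyAB A B p q u v)
        (closedBall (0 : (EuclideanSpace ℝ (Fin n))) r \ S) :=
      (h.integrableOn_energyAB (by omega) hA hB r).mono_set sdiff_subset
    have hlow : volume.real K * ((∫ x in closedBall (0 : (EuclideanSpace ℝ (Fin n))) r, energyAB A B p q u v x) -
        ∫ x in S, energyAB A B p q u v x) ≤ ∫ x, φ x * energyAB A B p q u v x := by
      rw [← setIntegral_sdiff₀ hSm.nullMeasurableSet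
        (h.integrableOn_energyAB (by omega) hA hB r)
        (hS1.trans (closedBall_subset_closedBall hr1)), ← integral_const_mul,
        ← integral_indicator (isClosed_closedBall.measurableSet.diff hSm)]
      refine integral_mono (IntegrableOn.integrable_indicator (hR.const_mul _)
        (isClosed_closedBall.measurableSet.diff hSm)) hint fun x => ?_
      by_cases hx : x ∈ closedBall (0 : (EuclideanSpace ℝ (Fin n))) r \ S
      · rw [indicator_of_mem hx]
        obtain ⟨hx1, hx2⟩ := hx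
        simp only [hS, mem_closedBall, dist_zero_right, not_le] at hx1 hx2
        refine mul_le_mul_of_nonneg_right ?_ (h.energyAB_nonneg x)
        rw [hφ, cutK_eq hK2 hε hx2.le]
        refine le_of_eq ?_
        unfold tailLen
        rw [inter_eq_left.2 fun t ht => mem_Ici.2 (hx1.trans (hK' ht).1)]
      · rw [indicator_of_notMem hx]
        exact mul_nonneg (cutK_nonneg _ _ _) (h.energyAB_nonneg x)
    -- upper bound
    set Ψ : (EuclideanSpace ℝ (Fin n)) → ℝ := fun x =>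
      T.indicator (fun y => AA * sphereDens p q u v y) x +
      S.indicator (fun _ => c₁ * (ε⁻¹) ^ 2) x with hΨ
    have hSi : IntegrableOn (fun _ => c₁ * (ε⁻¹) ^ 2) S :=
      integrableOn_const measure_closedBall_lt_top.ne
    have hΨi : Integrable Ψ :=
      (IntegrableOn.integrable_indicator (hdint.const_mul AA) hTm).add (hSi.integrable_indicator hSm)
    have hpt : ∀ x, ‖∑ i, lineDeriv ℝ φ x (EuclideanSpace.single i 1) *
        fieldAB A B p q u v a₁ a₂ i x‖ ≤ Ψ x := by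
      intro x
      have hΨ0 : 0 ≤ Ψ x := add_nonneg
        (indicator_nonneg (fun a _ => mul_nonneg hA0 (h.sphereDens_nonneg a)) x)
        (indicator_nonneg (fun a _ => by positivity) x)
      by_cases hxε : ‖x‖ < ε
      · have h0 : φ =ᶠ[𝓝 x] fun _ => (0 : ℝ) := by
          filter_upwards [(isOpen_lt continuous_norm continuous_const).mem_nhds hxε] with y hy
          exact cutK_eq_zero hK2 hε (Or.inl (le_of_lt hy))
        have : ∀ i : Fin n, lineDeriv ℝ φ x (EuclideanSpace.single i 1) = 0 := fun i => by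
          rw [h0.lineDeriv_eq]; simp [lineDeriv]
        simpa [this] using hΨ0
      have hb : ‖∑ i, lineDeriv ℝ φ x (EuclideanSpace.single i 1) *
          fieldAB A B p q u v a₁ a₂ i x‖ ≤
          (T.indicator (fun _ => (1 : ℝ)) x + S.indicator (fun _ => ε⁻¹) x) *
            ∑ i, |fieldAB A B p q u v a₁ a₂ i x| := by
        rw [Real.norm_eq_abs, Finset.mul_sum]
        refine (Finset.abs_sum_le_sum_abs _ _).trans (Finset.sum_le_sum fun i _ => ?_)
        rw [abs_mul]
        refine mul_le_mul_of_nonneg_right ?_ (abs_nonneg _)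
        simpa using abs_lineDeriv_cutK hK hK2 hε hε2 x (EuclideanSpace.single i (1 : ℝ))
      refine hb.trans ?_
      rw [add_mul, hΨ]
      refine add_le_add ?_ ?_
      · by_cases hx : x ∈ T
        · rw [indicator_of_mem hx, indicator_of_mem hx, one_mul, hAA, pohoConstAB, ← hm, ← ha₁, ← ha₂]
          exact annulus_boundAB h hp hq a₁ a₂ (hK2 hx).1 (hK2 hx).2
        · simp [indicator_of_notMem hx]
      · by_cases hx : x ∈ S
        · rw [indicator_of_mem hx, indicator_of_mem hx]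
          have hx2 : ‖x‖ ≤ 2 * ε := by simpa [hS] using hx
          obtain ⟨g1, g2⟩ := hGd x (norm_pos_iff.1 (hε.trans_le (not_lt.1 hxε)))
            (hx2.trans hε2.le)
          exact layer_boundAB h hA hB hp hq a₁ a₂ hε hε2 (not_lt.1 hxε) hx2 g1 g2
            ((le_abs_self _).trans (hMu x (hS1 hx))) ((le_abs_self _).trans (hMv x (hS1 hx)))
            ((le_abs_self _).trans (hMe x (hS1 hx)))
        · simp [indicator_of_notMem hx]
    have hup := norm_integral_le_of_norm_le hΨi (ae_of_all _ hpt)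
    rw [hΨ, integral_add (IntegrableOn.integrable_indicator (hdint.const_mul AA) hTm)
      (hSi.integrable_indicator hSm), integral_indicator hTm, integral_indicator hSm,
      integral_const_mul, setIntegral_const, smul_eq_mul] at hup
    rw [Real.norm_eq_abs] at hup
    simp only [fieldAB] at hup
    have hT' := mul_le_mul_of_nonneg_left hdT hA0
    have hl := mul_le_mul_of_nonneg_left hlow hm0.le
    have := (abs_le.1 hup).1
    nlinarith
  -- the limit
  set εk : ℕ → ℝ := fun k => 1 / ((k : ℝ) + 3) with hεk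
  have hεpos : ∀ k, 0 < εk k := fun k => by positivity
  have hεlt : ∀ k, 2 * εk k < 1 := fun k => by
    have : (0 : ℝ) ≤ k := k.cast_nonneg
    rw [hεk, mul_one_div, div_lt_one (by positivity)]; linarith
  have hlim0 : Tendsto εk atTop (𝓝 0) := by
    have := (tendsto_natCast_atTop_atTop (R := ℝ)).atTop_add (tendsto_const_nhds (x := (3 : ℝ)))
    simp only [hεk, one_div]
    exact this.inv_tendsto_atTop
  set Sk : ℕ → Set (EuclideanSpace ℝ (Fin n)) := fun k => closedBall (0 : (EuclideanSpace ℝ (Fin n))) (2 * εk k)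
  have hanti : Antitone Sk := fun j k hjk => closedBall_subset_closedBall (by
    simp only [hεk]; gcongr)
  have hvol : volume (⋂ k, Sk k) = 0 := by
    have : (⋂ k, Sk k) ⊆ {0} := fun x hx => by
      simp only [Sk, mem_iInter, mem_closedBall, dist_zero_right] at hx
      have : ‖x‖ ≤ 0 := le_of_tendsto_of_tendsto tendsto_const_nhds
        (by simpa using hlim0.const_mul 2) (Eventually.of_forall hx)
      simpa using this
    exact measure_mono_null this (measure_singleton 0)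
  have htend : ∀ g : (EuclideanSpace ℝ (Fin n)) → ℝ, IntegrableOn g (closedBall 0 1) →
      Tendsto (fun k => ∫ x in Sk k, g x) atTop (𝓝 0) := fun g hg => by
    have := tendsto_setIntegral_of_antitone (fun k => isClosed_closedBall.measurableSet) hanti
      ⟨0, hg.mono_set (closedBall_subset_closedBall (hεlt 0).le)⟩
    rwa [setIntegral_measure_zero g hvol] at this
  have hpow : Tendsto (fun k => volume.real (Sk k) * ((εk k)⁻¹) ^ 2) atTop (𝓝 0) := by
    have h' : Tendsto (fun k => 2 ^ n * volume.real (closedBall (0 : (EuclideanSpace ℝ (Fin n))) 1) * (εk k) ^ (n - 2))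
        atTop (𝓝 0) := by
      simpa [zero_pow (by omega : n - 2 ≠ 0)] using
        (hlim0.pow (n - 2)).const_mul (2 ^ n * volume.real (closedBall (0 : (EuclideanSpace ℝ (Fin n))) 1))
    refine h'.congr fun k => ?_
    have e : εk k ^ n = εk k ^ (n - 2) * εk k ^ 2 := by
      rw [← pow_add, Nat.sub_add_cancel (by omega : 2 ≤ n)]
    simp only [Sk]
    rw [Measure.real, Measure.real, Measure.addHaar_closedBall' volume (0 : (EuclideanSpace ℝ (Fin n)))
      (mul_pos two_pos (hεpos k)).le, finrank_euclideanSpace_fin, ENNReal.toReal_mul,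
      ENNReal.toReal_ofReal (by have := hεpos k; positivity), mul_pow, e]
    have := (hεpos k).ne'
    field_simp
  have hfin : m * volume.real K *
      ((∫ x in closedBall (0 : (EuclideanSpace ℝ (Fin n))) r, energyAB A B p q u v x) - 0) ≤
      AA * (2 ^ (n - 1) * D) + c₁ * 0 :=
    le_of_tendsto_of_tendsto
      ((tendsto_const_nhds.sub (htend _ (h.integrableOn_energyAB (by omega) hA hB 1))).const_mul _)
      (tendsto_const_nhds.add (hpow.const_mul c₁))
      (Eventually.of_forall fun k => main (εk k) (hεpos k) (hεlt k))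
  rw [mul_comm (AA * 2 ^ (n - 1) / m) D, mul_div, le_div_iff₀ hm0]
  nlinarith

end Vale.Agent.P100.SoupletAB
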