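import Mathlib
import Vale.Agent.P100.AssemblyG
import Vale.Agent.P100.SoupletAB.Main

/-!
# The Hénon–Lane–Emden system with any real weights

Dimensions two and three in full, dimension four for nonpositive weights, and every dimension for
`p q ≤ 1`, a weight `≤ -2`, or `max (α, β) > n - 3`.
-/

open Laplacian

namespace Vale.Agent.P100.SoupletAB

variable {n : ℕ}

/-- Nonpositive weights keep the unweighted pair subcritical. -/
theorem sum_gt_of_sub {N A B p q : ℝ} (hA : A ≤ 0) (hB : B ≤ 0) (hp : 0 < p) (hq : 0 < q)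
    (hpq : 1 < p * q) (hsub : N - 2 < (N + A) / (p + 1) + (N + B) / (q + 1)) :
    N - 2 < 2 * (p + 1) / (p * q - 1) + 2 * (q + 1) / (p * q - 1) := by
  have a : (N + A) / (p + 1) ≤ N / (p + 1) :=
    div_le_div_of_nonneg_right (by linarith) (by linarith)
  have b : (N + B) / (q + 1) ≤ N / (q + 1) :=
    div_le_div_of_nonneg_right (by linarith) (by linarith)
  have h : N - 2 < N / (p + 1) + N / (q + 1) := by linarith
  rw [div_add_div _ _ (by linarith) (by linarith), lt_div_iff₀ (by positivity)] at h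
  rw [← add_div, lt_div_iff₀ (by linarith)]
  linarith

/-- `p q ≤ 1` or a weight `≤ -2`: no solution, whatever the other parameters. -/
theorem no_solution_trivial_weights (hn : 2 ≤ n) {A B p q : ℝ} (hp : 0 < p) (hq : 0 < q)
    (hcase : p * q ≤ 1 ∨ A ≤ -2 ∨ B ≤ -2) {u v : EuclideanSpace ℝ (Fin n) → ℝ}
    (huc : Continuous u) (hvc : Continuous v) (hu : ContDiffOn ℝ 2 u {0}ᶜ)
    (hv : ContDiffOn ℝ 2 v {0}ᶜ) (hup : ∀ x, 0 < u x) (hvp : ∀ x, 0 < v x)
    (equ : ∀ x, x ≠ 0 → Δ u x = -(‖x‖ ^ A * v x ^ p))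
    (eqv : ∀ x, x ≠ 0 → Δ v x = -(‖x‖ ^ B * u x ^ q)) : False := by
  have hdim : 2 ≤ Module.finrank ℝ (EuclideanSpace ℝ (Fin n)) := by
    rw [finrank_euclideanSpace_fin]; exact hn
  rcases le_or_gt A (-2) with hA | hA
  · exact Super.no_supersolutionW_le_neg_two hdim hp hA huc hvc hu hup hvp
      fun x hx => (equ x hx).le
  rcases le_or_gt B (-2) with hB | hB
  · exact Super.no_supersolutionW_le_neg_two hdim hq hB hvc huc hv hvp hup
      fun x hx => (eqv x hx).le
  rcases hcase with h | h | h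
  · exact no_supersolutionAB_mul_le_one hdim hp hq hA hB h huc hvc hu hv hup hvp
      (fun x hx => (equ x hx).le) fun x hx => (eqv x hx).le
  · linarith
  · linarith

/-- **No solution for any real weights** in the cases listed. -/
theorem no_solution_weights (hn : 2 ≤ n) {A B p q : ℝ} (hp : 0 < p) (hq : 0 < q)
    (hsub : (n : ℝ) - 2 < ((n : ℝ) + A) / (p + 1) + ((n : ℝ) + B) / (q + 1))
    (hcase : n ≤ 3 ∨ (n = 4 ∧ A ≤ 0 ∧ B ≤ 0) ∨ p * q ≤ 1 ∨ A ≤ -2 ∨ B ≤ -2 ∨
      (n : ℝ) - 3 < max (2 * (p + 1) / (p * q - 1)) (2 * (q + 1) / (p * q - 1))) :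
    ¬ ∃ u v : EuclideanSpace ℝ (Fin n) → ℝ,
      Continuous u ∧ Continuous v ∧ ContDiffOn ℝ 2 u {0}ᶜ ∧ ContDiffOn ℝ 2 v {0}ᶜ ∧
      (∀ x, 0 < u x) ∧ (∀ x, 0 < v x) ∧ (∀ x, x ≠ 0 → Δ u x = -(‖x‖ ^ A * v x ^ p)) ∧
      (∀ x, x ≠ 0 → Δ v x = -(‖x‖ ^ B * u x ^ q)) := by
  rintro ⟨u, v, huc, hvc, hu, hv, hup, hvp, equ, eqv⟩
  have hdim : 2 ≤ Module.finrank ℝ (EuclideanSpace ℝ (Fin n)) := by
    rw [finrank_euclideanSpace_fin]; exact hn
  rcases (eq_or_lt_of_le hn : 2 = n ∨ 2 < n) with h2 | h2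
  · subst h2
    exact Super.no_supersolution_dim_two finrank_euclideanSpace_fin huc hu hup fun x hx => by
      rw [equ x hx]; exact Super.rhsW_neg hvp A p hx
  rcases le_or_gt A (-2) with hA | hA
  · exact Super.no_supersolutionW_le_neg_two hdim hp hA huc hvc hu hup hvp
      fun x hx => (equ x hx).le
  rcases le_or_gt B (-2) with hB | hB
  · exact Super.no_supersolutionW_le_neg_two hdim hq hB hvc huc hv hvp hup
      fun x hx => (eqv x hx).le
  rcases le_or_gt (p * q) 1 with hpq | hpq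
  · exact no_supersolutionAB_mul_le_one hdim hp hq hA hB hpq huc hvc hu hv hup hvp
      (fun x hx => (equ x hx).le) fun x hx => (eqv x hx).le
  refine souplet_range_weights_max (n := n) h2 hA hB hp hq hpq ?_ hsub
    ⟨u, v, huc, hvc, hu, hv, hup, hvp, equ, eqv⟩
  have hd : 0 < p * q - 1 := by linarith
  have h1 : 0 < 2 * (p + 1) / (p * q - 1) := div_pos (by linarith) hd
  have hm1 := le_max_left (2 * (p + 1) / (p * q - 1)) (2 * (q + 1) / (p * q - 1))
  have hm2 := le_max_right (2 * (p + 1) / (p * q - 1)) (2 * (q + 1) / (p * q - 1))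
  rcases hcase with h | ⟨h4, ha, hb⟩ | h | h | h | h
  · have : (n : ℝ) ≤ 3 := by exact_mod_cast h
    linarith
  · have e : (n : ℝ) = 4 := by exact_mod_cast h4
    have := sum_gt_of_sub ha hb hp hq hpq hsub
    linarith
  · linarith
  · linarith
  · linarith
  · exact h

end Vale.Agent.P100.SoupletAB
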